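import Mathlib

/-!
# Angles between Gaussian integers

Two Gaussian integers whose images in the complex plane make an angle of at most `π / 4` have a
positive inner product whose square is at least half the product of the squared lengths.
-/

namespace Vale.Agent.H4

theorem angle_int (s t : GaussianInt)
    (h : InnerProductGeometry.angle (GaussianInt.toComplex s) (GaussianInt.toComplex t)
      ≤ Real.pi / 4) :
    0 < s.re * t.re + s.im * t.im ∧
      (s.re * s.re + s.im * s.im) * (t.re * t.re + t.im * t.im)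
        ≤ 2 * ((s.re * t.re + s.im * t.im) * (s.re * t.re + s.im * t.im)) := by
  have hcos := InnerProductGeometry.cos_angle (GaussianInt.toComplex s) (GaussianInt.toComplex t)
  have hge : √2 / 2 ≤ Real.cos (InnerProductGeometry.angle (GaussianInt.toComplex s)
      (GaussianInt.toComplex t)) := by
    rw [← Real.cos_pi_div_four]
    exact Real.cos_le_cos_of_nonneg_of_le_pi (InnerProductGeometry.angle_nonneg _ _)
      (by linarith [Real.pi_pos]) h
  have hin : inner ℝ (GaussianInt.toComplex s) (GaussianInt.toComplex t)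
      = (s.re : ℝ) * t.re + s.im * t.im := by
    rw [GaussianInt.intCast_re, GaussianInt.intCast_re, GaussianInt.intCast_im,
      GaussianInt.intCast_im, Complex.inner]
    simp only [Complex.mul_re, Complex.conj_re, Complex.conj_im]
    ring
  have hns : ‖GaussianInt.toComplex s‖ ^ 2 = (s.re : ℝ) * s.re + s.im * s.im := by
    rw [GaussianInt.intCast_re, GaussianInt.intCast_im, Complex.sq_norm, Complex.normSq_apply]
  have hnt : ‖GaussianInt.toComplex t‖ ^ 2 = (t.re : ℝ) * t.re + t.im * t.im := by
    rw [GaussianInt.intCast_re, GaussianInt.intCast_im, Complex.sq_norm, Complex.normSq_apply]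
  rw [hcos, hin] at hge
  have hs2 : (0 : ℝ) < √2 / 2 := by positivity
  have hnn : 0 ≤ ‖GaussianInt.toComplex s‖ * ‖GaussianInt.toComplex t‖ := by positivity
  have hpos : 0 < ‖GaussianInt.toComplex s‖ * ‖GaussianInt.toComplex t‖ := by
    rcases hnn.lt_or_eq with hlt | heq
    · exact hlt
    · rw [← heq, div_zero] at hge
      linarith
  have hc : √2 / 2 * (‖GaussianInt.toComplex s‖ * ‖GaussianInt.toComplex t‖)
      ≤ (s.re : ℝ) * t.re + s.im * t.im := (le_div_iff₀ hpos).mp hge
  have hcpos : (0 : ℝ) < (s.re : ℝ) * t.re + s.im * t.im := lt_of_lt_of_le (by positivity) hc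
  have hsq : (√2 / 2 * (‖GaussianInt.toComplex s‖ * ‖GaussianInt.toComplex t‖)) ^ 2
      ≤ ((s.re : ℝ) * t.re + s.im * t.im) ^ 2 := by
    apply pow_le_pow_left₀ (by positivity) hc
  have h2 : (√2 : ℝ) ^ 2 = 2 := Real.sq_sqrt (by norm_num)
  have hfin : ((s.re : ℝ) * s.re + s.im * s.im) * ((t.re : ℝ) * t.re + t.im * t.im)
      ≤ 2 * (((s.re : ℝ) * t.re + s.im * t.im) * ((s.re : ℝ) * t.re + s.im * t.im)) := by
    rw [← hns, ← hnt]
    have e : (√2 / 2 * (‖GaussianInt.toComplex s‖ * ‖GaussianInt.toComplex t‖)) ^ 2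
        = (√2) ^ 2 / 4 * (‖GaussianInt.toComplex s‖ ^ 2 * ‖GaussianInt.toComplex t‖ ^ 2) := by
      ring
    rw [e, h2] at hsq
    nlinarith
  constructor
  · exact_mod_cast hcpos
  · exact_mod_cast hfin

end Vale.Agent.H4
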