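import Vale.Agent.H4.Sweep

/-!
# Kernel evaluation of the sweeps

Steps are given in the coordinates `(column, a)`: a step `(da, db)` with `da + db = 2` moves one
column and shifts by `da`; a step with `da + db = 4` moves two columns and shifts by `da`.
-/

namespace Vale.Agent.H4

/-- Steps `(1,1), (2,0), (0,2)` (one column) and `(2,2)` (two columns). -/
theorem check_X : check [1, 2, 0] [2] 700 = true := by decide +kernel

/-- Steps `(2,0), (1,1)` (one column) and `(3,1), (2,2)` (two columns). -/
theorem check_O4 : check [2, 1] [3, 2] 700 = true := by decide +kernel

/-- Steps `(3,-1), (2,0)` (one column) and `(3,1)` (two columns). -/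
theorem check_T3 : check [3, 2] [3] 300 = true := by decide +kernel

end Vale.Agent.H4
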