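import Vale.Agent.H4.Glue

/-!
# Walks whose steps pairwise make an angle of at most 45 degrees, steps at most `sqrt 10`
-/

namespace Vale.Agent.H4

/-- All steps of the integer walk `(a, b)` lie in the list `M`. -/
def StepIn (M : List (ℤ × ℤ)) (a b : ℕ → ℤ) : Prop :=
  ∀ n, (a (n + 1) - a n, b (n + 1) - b n) ∈ M

theorem opn2_swap {a b : ℤ} (h : Opn2 a b) : Opn2 b a := by
  obtain ⟨h1, h2⟩ := h
  refine ⟨by omega, ?_⟩
  unfold Opn at h2 ⊢
  rw [add_comm (b ^ 2) (a ^ 2)]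
  exact h2

theorem opn2_neg_right {a b : ℤ} (h : Opn2 a b) : Opn2 a (-b) := by
  obtain ⟨h1, h2⟩ := h
  refine ⟨by omega, ?_⟩
  unfold Opn at h2 ⊢
  rw [neg_sq]
  exact h2

theorem opn2_neg_left {a b : ℤ} (h : Opn2 a b) : Opn2 (-a) b := by
  obtain ⟨h1, h2⟩ := h
  refine ⟨by omega, ?_⟩
  unfold Opn at h2 ⊢
  rw [neg_sq]
  exact h2

/-- No infinite sieved walk with steps in the octant `0 <= db <= da`, length at most `sqrt 10`. -/
theorem walk_O4 (a b : ℕ → ℤ) (hop : ∀ n, Opn2 (a n) (b n))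
    (hstep : StepIn [(2, 0), (3, 1), (1, 1), (2, 2)] a b) : False := by
  refine no_int_walk [2, 1] [3, 2] 700 check_O4 (by norm_num) (by decide) (by decide) a b
    (hop 0).1 (fun n => (hop n).2) ?_
  intro j
  have h := hstep j
  simp only [List.mem_cons, Prod.mk.injEq, List.mem_nil_iff, or_false] at h
  rcases h with ⟨ha, hb⟩ | ⟨ha, hb⟩ | ⟨ha, hb⟩ | ⟨ha, hb⟩
  · exact Or.inl ⟨2, by simp, by push_cast; omega, by push_cast; omega⟩
  · exact Or.inr ⟨3, by simp, by push_cast; omega, by push_cast; omega⟩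
  · exact Or.inl ⟨1, by simp, by push_cast; omega, by push_cast; omega⟩
  · exact Or.inr ⟨2, by simp, by push_cast; omega, by push_cast; omega⟩

/-- No infinite sieved walk with steps `(3,-1), (2,0), (3,1)`. -/
theorem walk_T3 (a b : ℕ → ℤ) (hop : ∀ n, Opn2 (a n) (b n))
    (hstep : StepIn [(3, -1), (2, 0), (3, 1)] a b) : False := by
  refine no_int_walk [3, 2] [3] 300 check_T3 (by norm_num) (by decide) (by decide) a b
    (hop 0).1 (fun n => (hop n).2) ?_
  intro j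
  have h := hstep j
  simp only [List.mem_cons, Prod.mk.injEq, List.mem_nil_iff, or_false] at h
  rcases h with ⟨ha, hb⟩ | ⟨ha, hb⟩ | ⟨ha, hb⟩
  · exact Or.inl ⟨3, by simp, by push_cast; omega, by push_cast; omega⟩
  · exact Or.inl ⟨2, by simp, by push_cast; omega, by push_cast; omega⟩
  · exact Or.inr ⟨3, by simp, by push_cast; omega, by push_cast; omega⟩

/-- The mirror image of `walk_O4` under `b ↦ -b`. -/
theorem walk_O4m (a b : ℕ → ℤ) (hop : ∀ n, Opn2 (a n) (b n))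
    (hstep : StepIn [(2, 0), (3, -1), (1, -1), (2, -2)] a b) : False := by
  refine walk_O4 a (fun n => -b n) (fun n => opn2_neg_right (hop n)) ?_
  intro j
  have h := hstep j
  simp only [List.mem_cons, Prod.mk.injEq, List.mem_nil_iff, or_false] at h ⊢
  omega

/-- The mirror image of `walk_O4` under the exchange of the coordinates. -/
theorem walk_O4s (a b : ℕ → ℤ) (hop : ∀ n, Opn2 (a n) (b n))
    (hstep : StepIn [(0, 2), (1, 3), (1, 1), (2, 2)] a b) : False := by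
  refine walk_O4 b a (fun n => opn2_swap (hop n)) ?_
  intro j
  have h := hstep j
  simp only [List.mem_cons, Prod.mk.injEq, List.mem_nil_iff, or_false] at h ⊢
  omega

/-- The nonzero vectors of even norm at most `10`. -/
def V20 : List (ℤ × ℤ) :=
  [(1, 1), (1, -1), (-1, 1), (-1, -1), (2, 0), (-2, 0), (0, 2), (0, -2), (2, 2), (2, -2),
    (-2, 2), (-2, -2), (3, 1), (3, -1), (-3, 1), (-3, -1), (1, 3), (1, -3), (-1, 3), (-1, -3)]

/-- Boolean test that two vectors make an angle of at most 45 degrees: the inner product is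
nonnegative and twice its square is at least the product of the squared lengths. -/
def cmpb (s t : ℤ × ℤ) : Bool :=
  decide (0 ≤ s.1 * t.1 + s.2 * t.2) &&
    decide ((s.1 * s.1 + s.2 * s.2) * (t.1 * t.1 + t.2 * t.2)
      ≤ 2 * ((s.1 * t.1 + s.2 * t.2) * (s.1 * t.1 + s.2 * t.2)))

theorem mem_V20 (x y : ℤ) (h : x ^ 2 + y ^ 2 ≤ 10) (hnz : x ≠ 0 ∨ y ≠ 0)
    (hpar : (x + y) % 2 = 0) : (x, y) ∈ V20 := by
  have hx : -3 ≤ x ∧ x ≤ 3 := by constructor <;> nlinarith [sq_nonneg y]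
  have hy : -3 ≤ y ∧ y ≤ 3 := by constructor <;> nlinarith [sq_nonneg x]
  obtain ⟨hx1, hx2⟩ := hx
  obtain ⟨hy1, hy2⟩ := hy
  interval_cases x <;> interval_cases y <;> first | decide | (exfalso; simp_all)

theorem fact_K0 : ∀ s ∈ V20, 0 ≤ s.2 → s.2 ≤ s.1 → s ∈ [((2 : ℤ), (0 : ℤ)), (3, 1), (1, 1), (2, 2)] := by
  decide

theorem fact_F1 : ∀ t1 ∈ [((1 : ℤ), (-1 : ℤ)), (2, -2)], ∀ s ∈ V20, cmpb s (2, 0) = true →
    cmpb s t1 = true → s ∈ [((2 : ℤ), (0 : ℤ)), (3, -1), (1, -1), (2, -2)] := by decide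

theorem fact_F2 : ∀ t1 ∈ [((1 : ℤ), (1 : ℤ)), (2, 2)], ∀ s ∈ V20, cmpb s (2, 0) = true →
    cmpb s t1 = true → s ∈ [((2 : ℤ), (0 : ℤ)), (3, 1), (1, 1), (2, 2)] := by decide

theorem fact_F3 : ∀ s ∈ V20, cmpb s (2, 0) = true → s ∉ [((1 : ℤ), (-1 : ℤ)), (2, -2)] →
    s ∉ [((1 : ℤ), (1 : ℤ)), (2, 2)] → s ∈ [((3 : ℤ), (-1 : ℤ)), (2, 0), (3, 1)] := by decide

theorem fact_G1 : ∀ s ∈ V20, cmpb s (3, 1) = true → cmpb s (3, -1) = true →
    s ∈ [((3 : ℤ), (-1 : ℤ)), (2, 0), (3, 1)] := by decide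

theorem fact_G2 : ∀ s ∈ V20, cmpb s (3, 1) = true → s ≠ (3, -1) →
    s ∈ [((2 : ℤ), (0 : ℤ)), (3, 1), (1, 1), (2, 2)] := by decide

theorem fact_H1 : ∀ t0 ∈ [((1 : ℤ), (1 : ℤ)), (2, 2)], ∀ s ∈ V20, cmpb s t0 = true →
    cmpb s (2, 0) = true → s ∈ [((2 : ℤ), (0 : ℤ)), (3, 1), (1, 1), (2, 2)] := by decide

theorem fact_H2 : ∀ t0 ∈ [((1 : ℤ), (1 : ℤ)), (2, 2)], ∀ s ∈ V20, cmpb s t0 = true →
    cmpb s (0, 2) = true → s ∈ [((0 : ℤ), (2 : ℤ)), (1, 3), (1, 1), (2, 2)] := by decide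

theorem fact_H3 : ∀ t0 ∈ [((1 : ℤ), (1 : ℤ)), (2, 2)], ∀ s ∈ V20, cmpb s t0 = true →
    s ≠ (2, 0) → s ≠ (0, 2) → cmpb s (3, 1) = true →
    s ∈ [((2 : ℤ), (0 : ℤ)), (3, 1), (1, 1), (2, 2)] := by decide

theorem fact_H4 : ∀ t0 ∈ [((1 : ℤ), (1 : ℤ)), (2, 2)], ∀ s ∈ V20, cmpb s t0 = true →
    s ≠ (2, 0) → s ≠ (0, 2) → s ≠ (3, 1) →
    s ∈ [((0 : ℤ), (2 : ℤ)), (1, 3), (1, 1), (2, 2)] := by decide

theorem fact_swapV : ∀ s ∈ V20, (s.2, s.1) ∈ V20 := by decide

theorem fact_negrV : ∀ s ∈ V20, (s.1, -s.2) ∈ V20 := by decide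

theorem fact_neglV : ∀ s ∈ V20, (-s.1, s.2) ∈ V20 := by decide

theorem cmpb_swap (x y x' y' : ℤ) : cmpb (y, x) (y', x') = cmpb (x, y) (x', y') := by
  unfold cmpb
  have e1 : y * y' + x * x' = x * x' + y * y' := by ring
  have e2 : y * y + x * x = x * x + y * y := by ring
  have e3 : y' * y' + x' * x' = x' * x' + y' * y' := by ring
  simp only [e1, e2, e3]

theorem cmpb_negr (x y x' y' : ℤ) : cmpb (x, -y) (x', -y') = cmpb (x, y) (x', y') := by
  unfold cmpb
  have e1 : x * x' + -y * -y' = x * x' + y * y' := by ring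
  have e2 : x * x + -y * -y = x * x + y * y := by ring
  have e3 : x' * x' + -y' * -y' = x' * x' + y' * y' := by ring
  simp only [e1, e2, e3]

theorem cmpb_negl (x y x' y' : ℤ) : cmpb (-x, y) (-x', y') = cmpb (x, y) (x', y') := by
  unfold cmpb
  have e1 : -x * -x' + y * y' = x * x' + y * y' := by ring
  have e2 : -x * -x + y * y = x * x + y * y := by ring
  have e3 : -x' * -x' + y' * y' = x' * x' + y' * y' := by ring
  simp only [e1, e2, e3]

/-- Hypotheses on an integer walk: sieved cells, steps in `V20`, and any two steps within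
45 degrees of each other. -/
def PY (a b : ℕ → ℤ) : Prop :=
  (∀ n, Opn2 (a n) (b n)) ∧ (∀ n, (a (n + 1) - a n, b (n + 1) - b n) ∈ V20) ∧
    ∀ m n, cmpb (a (m + 1) - a m, b (m + 1) - b m) (a (n + 1) - a n, b (n + 1) - b n) = true

theorem py_swap {a b : ℕ → ℤ} (h : PY a b) : PY b a := by
  obtain ⟨hop, hV, hc⟩ := h
  refine ⟨fun n => opn2_swap (hop n), fun n => fact_swapV _ (hV n), fun m n => ?_⟩
  rw [cmpb_swap]; exact hc m n

theorem py_negr {a b : ℕ → ℤ} (h : PY a b) : PY a (fun n => -b n) := by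
  obtain ⟨hop, hV, hc⟩ := h
  have e : ∀ n, -b (n + 1) - -b n = -(b (n + 1) - b n) := fun n => by ring
  refine ⟨fun n => opn2_neg_right (hop n), fun n => ?_, fun m n => ?_⟩
  · simp only [e]; exact fact_negrV _ (hV n)
  · simp only [e]; rw [cmpb_negr]; exact hc m n

theorem py_negl {a b : ℕ → ℤ} (h : PY a b) : PY (fun n => -a n) b := by
  obtain ⟨hop, hV, hc⟩ := h
  have e : ∀ n, -a (n + 1) - -a n = -(a (n + 1) - a n) := fun n => by ring
  refine ⟨fun n => opn2_neg_left (hop n), fun n => ?_, fun m n => ?_⟩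
  · simp only [e]; exact fact_neglV _ (hV n)
  · simp only [e]; rw [cmpb_negl]; exact hc m n

/-- The case in which the first step lies in the octant `0 <= db <= da`. -/
theorem py_core (a b : ℕ → ℤ) (h : PY a b) (hy : 0 ≤ b (0 + 1) - b 0)
    (hxy : b (0 + 1) - b 0 ≤ a (0 + 1) - a 0) : False := by
  obtain ⟨hop, hV, hc⟩ := h
  have h0 := fact_K0 _ (hV 0) hy hxy
  simp only [List.mem_cons, List.mem_nil_iff, or_false] at h0
  rcases h0 with h0 | h0 | h0 | h0
  · have hc0 : ∀ n, cmpb (a (n + 1) - a n, b (n + 1) - b n) (2, 0) = true := fun n => by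
      have := hc n 0; rw [h0] at this; exact this
    by_cases e1 : ∃ j, (a (j + 1) - a j, b (j + 1) - b j) ∈ [((1 : ℤ), (-1 : ℤ)), (2, -2)]
    · obtain ⟨j, hj⟩ := e1
      exact walk_O4m a b hop (fun n => fact_F1 _ hj _ (hV n) (hc0 n) (hc n j))
    · by_cases e2 : ∃ j, (a (j + 1) - a j, b (j + 1) - b j) ∈ [((1 : ℤ), (1 : ℤ)), (2, 2)]
      · obtain ⟨j, hj⟩ := e2
        exact walk_O4 a b hop (fun n => fact_F2 _ hj _ (hV n) (hc0 n) (hc n j))
      · exact walk_T3 a b hop (fun n => fact_F3 _ (hV n) (hc0 n) (fun hh => e1 ⟨n, hh⟩)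
          (fun hh => e2 ⟨n, hh⟩))
  · have hc0 : ∀ n, cmpb (a (n + 1) - a n, b (n + 1) - b n) (3, 1) = true := fun n => by
      have := hc n 0; rw [h0] at this; exact this
    by_cases e1 : ∃ j, (a (j + 1) - a j, b (j + 1) - b j) = ((3 : ℤ), (-1 : ℤ))
    · obtain ⟨j, hj⟩ := e1
      exact walk_T3 a b hop (fun n => fact_G1 _ (hV n) (hc0 n) (by
        have := hc n j; rw [hj] at this; exact this))
    · exact walk_O4 a b hop (fun n => fact_G2 _ (hV n) (hc0 n) (fun hh => e1 ⟨n, hh⟩))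
  all_goals
    have ht0 : (a (0 + 1) - a 0, b (0 + 1) - b 0) ∈ [((1 : ℤ), (1 : ℤ)), (2, 2)] := by
      rw [h0]; decide
    by_cases e1 : ∃ j, (a (j + 1) - a j, b (j + 1) - b j) = ((2 : ℤ), (0 : ℤ))
    · obtain ⟨j, hj⟩ := e1
      exact walk_O4 a b hop (fun n => fact_H1 _ ht0 _ (hV n) (hc n 0) (by
        have := hc n j; rw [hj] at this; exact this))
    · by_cases e2 : ∃ j, (a (j + 1) - a j, b (j + 1) - b j) = ((0 : ℤ), (2 : ℤ))
      · obtain ⟨j, hj⟩ := e2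
        exact walk_O4s a b hop (fun n => fact_H2 _ ht0 _ (hV n) (hc n 0) (by
          have := hc n j; rw [hj] at this; exact this))
      · by_cases e3 : ∃ j, (a (j + 1) - a j, b (j + 1) - b j) = ((3 : ℤ), (1 : ℤ))
        · obtain ⟨j, hj⟩ := e3
          exact walk_O4 a b hop (fun n => fact_H3 _ ht0 _ (hV n) (hc n 0)
            (fun hh => e1 ⟨n, hh⟩) (fun hh => e2 ⟨n, hh⟩) (by
              have := hc n j; rw [hj] at this; exact this))
        · exact walk_O4s a b hop (fun n => fact_H4 _ ht0 _ (hV n) (hc n 0)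
            (fun hh => e1 ⟨n, hh⟩) (fun hh => e2 ⟨n, hh⟩) (fun hh => e3 ⟨n, hh⟩))

theorem py_false_of_nonneg (a b : ℕ → ℤ) (h : PY a b) (hx : 0 ≤ a (0 + 1) - a 0) : False := by
  by_cases hy : 0 ≤ b (0 + 1) - b 0
  · by_cases hxy : b (0 + 1) - b 0 ≤ a (0 + 1) - a 0
    · exact py_core a b h hy hxy
    · exact py_core b a (py_swap h) hx (by omega)
  · by_cases hxy : -(b (0 + 1) - b 0) ≤ a (0 + 1) - a 0
    · refine py_core a (fun n => -b n) (py_negr h) ?_ ?_
      · show 0 ≤ -b (0 + 1) - -b 0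
        omega
      · show -b (0 + 1) - -b 0 ≤ a (0 + 1) - a 0
        omega
    · refine py_core (fun n => -b n) a (py_swap (py_negr h)) hx ?_
      show a (0 + 1) - a 0 ≤ -b (0 + 1) - -b 0
      omega

/-- There is no infinite walk through sieved cells with steps of even norm at most `10` that
pairwise make an angle of at most 45 degrees. -/
theorem py_false (a b : ℕ → ℤ) (h : PY a b) : False := by
  by_cases hx : 0 ≤ a (0 + 1) - a 0
  · exact py_false_of_nonneg a b h hx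
  · refine py_false_of_nonneg (fun n => -a n) b (py_negl h) ?_
    show 0 ≤ -a (0 + 1) - -a 0
    omega

end Vale.Agent.H4
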