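import Vale.Agent.H4.Glue

/-!
# Walks that advance in a diagonal direction, steps at most `sqrt 8`

There is no infinite sequence of Gaussian primes with consecutive distances at most `sqrt 8`
along which one of the four functions `± re ± im` is strictly increasing.
-/

namespace Vale.Agent.H4

theorem diag_walk :
    ¬ ∃ (z : ℕ → GaussianInt) (ε δ : ℤ), (ε = 1 ∨ ε = -1) ∧ (δ = 1 ∨ δ = -1) ∧
      (∀ n, Prime (z n)) ∧
      (∀ n, Zsqrtd.norm (z (n + 1) - z n) ≤ 8) ∧
      (∀ n, ε * (z n).re + δ * (z n).im < ε * (z (n + 1)).re + δ * (z (n + 1)).im) := by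
  rintro ⟨z, ε, δ, hε, hδ, hprime, hstep, hinc⟩
  have hgrow : ∀ n, ε * (z 0).re + δ * (z 0).im + n ≤ ε * (z n).re + δ * (z n).im := by
    intro n
    induction n with
    | zero => simp
    | succ n ih => have := hinc n; push_cast; omega
  have hbig : ∀ j, 841 < (z ((60 - (ε * (z 0).re + δ * (z 0).im)).toNat + j)).norm := by
    intro j
    have h := hgrow ((60 - (ε * (z 0).re + δ * (z 0).im)).toNat + j)
    push_cast at h
    generalize z ((60 - (ε * (z 0).re + δ * (z 0).im)).toNat + j) = w at *
    have h60 : 60 ≤ ε * w.re + δ * w.im := by omega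
    have e : w.norm = (ε * w.re) ^ 2 + (δ * w.im) ^ 2 := by
      rw [gnorm]
      rcases hε with rfl | rfl <;> rcases hδ with rfl | rfl <;> ring
    rw [e]
    nlinarith [sq_nonneg (ε * w.re - δ * w.im)]
  refine walk_X (fun j => ε * (z ((60 - (ε * (z 0).re + δ * (z 0).im)).toNat + j)).re)
    (fun j => δ * (z ((60 - (ε * (z 0).re + δ * (z 0).im)).toNat + j)).im) ?_ ?_ ?_
  · intro j
    exact opn2_of_prime _ (hprime _) (hbig j) ε δ hε hδ
  · intro j
    have hs := hstep ((60 - (ε * (z 0).re + δ * (z 0).im)).toNat + j)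
    rw [gnorm] at hs
    simp only [Zsqrtd.re_sub, Zsqrtd.im_sub] at hs
    have e : (60 - (ε * (z 0).re + δ * (z 0).im)).toNat + (j + 1)
        = ((60 - (ε * (z 0).re + δ * (z 0).im)).toNat + j) + 1 := by ring
    simp only [e]
    rcases hε with rfl | rfl <;> rcases hδ with rfl | rfl <;> nlinarith
  · intro j
    have e : (60 - (ε * (z 0).re + δ * (z 0).im)).toNat + (j + 1)
        = ((60 - (ε * (z 0).re + δ * (z 0).im)).toNat + j) + 1 := by ring
    simp only [e]
    exact hinc _

end Vale.Agent.H4
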