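import Vale.Agent.H4.Strip

/-!
# Prime-free disks centred on an arbitrary real line

For every real line `a x + b y = c`, every radius `R` and every position `T` along the line there
is a point `(x, y)` of the line, at position at least `T`, whose distance to every Gaussian prime
exceeds `R`.
-/

namespace Vale.Agent.H4

theorem prime_free_disk (a b c : ℝ) (hab : a ≠ 0 ∨ b ≠ 0) (R T : ℝ) :
    ∃ x y : ℝ, a * x + b * y = c ∧ T ≤ -b * x + a * y ∧
      ∀ z : GaussianInt, Prime z → R ^ 2 < ((z.re : ℝ) - x) ^ 2 + ((z.im : ℝ) - y) ^ 2 := by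
  have hρ : 0 < a ^ 2 + b ^ 2 := by
    rcases hab with h | h
    · have := sq_pos_of_ne_zero h; nlinarith [sq_nonneg b]
    · have := sq_pos_of_ne_zero h; nlinarith [sq_nonneg a]
  have hρne : a ^ 2 + b ^ 2 ≠ 0 := hρ.ne'
  have ha0 : 0 ≤ |a| := abs_nonneg a
  have hb0 : 0 ≤ |b| := abs_nonneg b
  have hR0 : 0 ≤ |R| := abs_nonneg R
  obtain ⟨B, hBdef⟩ : ∃ B : ℝ, B = (|a| + |b|) * |R| := ⟨_, rfl⟩
  obtain ⟨σ, hσdef⟩ : ∃ σ : ℝ, σ = |a| + |b| + 1 := ⟨_, rfl⟩
  have hB0 : 0 ≤ B := by rw [hBdef]; positivity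
  have hσ0 : 0 ≤ σ := by rw [hσdef]; positivity
  have hσ2 : a ^ 2 + b ^ 2 < σ ^ 2 := by
    rw [hσdef]
    nlinarith [sq_abs a, sq_abs b, mul_nonneg ha0 hb0]
  -- (a^2+b^2) R^2 ≤ B^2
  have hBR : (a ^ 2 + b ^ 2) * R ^ 2 ≤ B ^ 2 := by
    rw [hBdef, mul_pow, sq_abs R]
    apply mul_le_mul_of_nonneg_right _ (sq_nonneg R)
    nlinarith [sq_abs a, sq_abs b, mul_nonneg ha0 hb0]
  obtain ⟨K, hK⟩ := exists_nat_ge (((B + |c| + 1) ^ 2 + (σ + 2 * B) ^ 2) / (a ^ 2 + b ^ 2))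
  have hMpos : 0 < (2 * K + 1).factorial := Nat.factorial_pos _
  obtain ⟨u, v, hg, hl, hm⟩ := approx a b c hab _ hMpos T
  obtain ⟨mQ, hmQ⟩ : ∃ mQ : ℝ, mQ = -b * ((((2 * K + 1).factorial : ℕ) : ℝ) * u)
      + a * ((((2 * K + 1).factorial : ℕ) : ℝ) * v) := ⟨_, rfl⟩
  rw [← hmQ] at hm
  refine ⟨(a * c - b * (mQ + σ + B)) / (a ^ 2 + b ^ 2),
    (b * c + a * (mQ + σ + B)) / (a ^ 2 + b ^ 2), ?_, ?_, ?_⟩
  · field_simp
    ring
  · have e : -b * ((a * c - b * (mQ + σ + B)) / (a ^ 2 + b ^ 2))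
        + a * ((b * c + a * (mQ + σ + B)) / (a ^ 2 + b ^ 2)) = mQ + σ + B := by
      field_simp
      ring
    rw [e]; linarith
  · intro z hz
    by_contra hcon
    rw [not_lt] at hcon
    -- coordinates of z relative to the point of the line
    have e1 : a * ((z.re : ℝ) - (a * c - b * (mQ + σ + B)) / (a ^ 2 + b ^ 2))
        + b * ((z.im : ℝ) - (b * c + a * (mQ + σ + B)) / (a ^ 2 + b ^ 2))
        = a * z.re + b * z.im - c := by
      field_simp
      ring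
    have e2 : -b * ((z.re : ℝ) - (a * c - b * (mQ + σ + B)) / (a ^ 2 + b ^ 2))
        + a * ((z.im : ℝ) - (b * c + a * (mQ + σ + B)) / (a ^ 2 + b ^ 2))
        = (-b * z.re + a * z.im) - (mQ + σ + B) := by
      field_simp
      ring
    have hid : (a * z.re + b * z.im - c) ^ 2 + ((-b * z.re + a * z.im) - (mQ + σ + B)) ^ 2
        = (a ^ 2 + b ^ 2) * (((z.re : ℝ) - (a * c - b * (mQ + σ + B)) / (a ^ 2 + b ^ 2)) ^ 2
          + ((z.im : ℝ) - (b * c + a * (mQ + σ + B)) / (a ^ 2 + b ^ 2)) ^ 2) := by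
      rw [← e1, ← e2]; ring
    have hle : (a * z.re + b * z.im - c) ^ 2 + ((-b * z.re + a * z.im) - (mQ + σ + B)) ^ 2
        ≤ B ^ 2 := by
      rw [hid]
      exact le_trans (mul_le_mul_of_nonneg_left hcon hρ.le) hBR
    have hu : |a * z.re + b * z.im - c| ≤ B := by
      apply abs_le_of_sq_le_sq _ hB0
      exact le_trans (le_add_of_nonneg_right (sq_nonneg _)) hle
    have hw : |(-b * z.re + a * z.im) - (mQ + σ + B)| ≤ B := by
      apply abs_le_of_sq_le_sq _ hB0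
      exact le_trans (le_add_of_nonneg_left (sq_nonneg _)) hle
    have hw' := abs_le.mp hw
    refine strip_block a b c B σ (2 * B) hρ hσ2 hσ0 K hK u v z hg hl hu ?_ ?_ hz
    · rw [← hmQ, abs_of_nonneg (by linarith)]; linarith
    · rw [← hmQ, abs_of_nonneg (by linarith)]; linarith

end Vale.Agent.H4
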