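import Mathlib

/-!
# Ekeland's variational principle (helper file for P171)

`ekeland_strong`: on a complete metric space, a lower semicontinuous function `h` that is
bounded below has, for every `η > 0` and every starting point `x0`, a point `x` with
`h x + η * dist x0 x ≤ h x0` which is a strict minimiser of `y ↦ h y + η * dist x y`.

`ekeland`: the weak form `∃ x, ∀ y, h x ≤ h y + η * dist x y`.
-/

namespace Vale.Agent.H4.Ekeland

open Filter Topology Set

variable {X : Type*} [MetricSpace X] [CompleteSpace X]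

theorem ekeland_strong (h : X → ℝ) (hlsc : LowerSemicontinuous h)
    (hbdd : BddBelow (Set.range h)) (η : ℝ) (hη : 0 < η) (x0 : X) :
    ∃ x : X, h x + η * dist x0 x ≤ h x0 ∧ ∀ y : X, y ≠ x → h x < h y + η * dist x y := by
  classical
  set S : X → Set X := fun x => {y | h y + η * dist x y ≤ h x} with hS
  have hself : ∀ x, x ∈ S x := fun x => by simp [hS]
  have htrans : ∀ x y z, y ∈ S x → z ∈ S y → z ∈ S x := by
    intro x y z hy hz
    simp only [hS, Set.mem_ofPred_eq] at hy hz ⊢
    have h1 := dist_triangle x y z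
    nlinarith [mul_le_mul_of_nonneg_left h1 hη.le]
  have hclosed : ∀ x, IsClosed (S x) := by
    intro x
    have h1 : LowerSemicontinuous (fun y => h y + η * dist x y) :=
      hlsc.add (Continuous.lowerSemicontinuous (by fun_prop))
    exact h1.isClosed_preimage (h x)
  obtain ⟨c, hc⟩ := hbdd
  have hc' : ∀ y, c ≤ h y := fun y => hc (mem_range_self y)
  set m : X → ℝ := fun x => sInf (h '' S x) with hm
  have hmle : ∀ x y, y ∈ S x → m x ≤ h y := by
    intro x y hy
    exact csInf_le ⟨c, by rintro _ ⟨z, -, rfl⟩; exact hc' z⟩ (mem_image_of_mem h hy)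
  have hnext : ∀ x (ε : ℝ), 0 < ε → ∃ y, y ∈ S x ∧ h y < m x + ε := by
    intro x ε hε
    have hne : (h '' S x).Nonempty := ⟨h x, mem_image_of_mem h (hself x)⟩
    obtain ⟨_, ⟨y, hy, rfl⟩, hlt⟩ := exists_lt_of_csInf_lt hne (lt_add_of_pos_right (m x) hε)
    exact ⟨y, hy, hlt⟩
  choose! nxt hnxt using hnext
  let ε : ℕ → ℝ := fun k => (1 / 2 : ℝ) ^ k
  have hεpos : ∀ k, 0 < ε k := fun k => by positivity
  let u : ℕ → X := fun k => Nat.rec x0 (fun k x => nxt x (ε k)) k
  have husucc : ∀ k, u (k + 1) = nxt (u k) (ε k) := fun k => rfl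
  have hstep : ∀ k, u (k + 1) ∈ S (u k) := fun k => by
    rw [husucc]; exact (hnxt _ _ (hεpos k)).1
  have hmem : ∀ k j, k ≤ j → u j ∈ S (u k) := by
    intro k j hkj
    induction j, hkj using Nat.le_induction with
    | base => exact hself _
    | succ j hkj ih => exact htrans _ _ _ ih (hstep j)
  have hdiam : ∀ k y, y ∈ S (u (k + 1)) → dist (u (k + 1)) y ≤ ε k / η := by
    intro k y hy
    have h1 : y ∈ S (u k) := htrans _ _ _ (hstep k) hy
    have h2 : m (u k) ≤ h y := hmle _ _ h1
    have h3 : h (u (k + 1)) < m (u k) + ε k := by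
      rw [husucc]; exact (hnxt _ _ (hεpos k)).2
    have h4 : h y + η * dist (u (k + 1)) y ≤ h (u (k + 1)) := hy
    rw [le_div_iff₀ hη]
    nlinarith
  have hε0 : Tendsto (fun k => ε k / η) atTop (𝓝 0) := by
    have h1 : Tendsto ε atTop (𝓝 0) :=
      tendsto_pow_atTop_nhds_zero_of_lt_one (by norm_num) (by norm_num)
    simpa using h1.div_const η
  let v : ℕ → X := fun k => u (k + 1)
  have hcau : CauchySeq v := by
    refine cauchySeq_of_le_tendsto_0 (fun k => 2 * (ε k / η)) ?_ ?_
    · intro n j N hn hj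
      have h1 : dist (u (N + 1)) (v n) ≤ ε N / η :=
        hdiam N _ (hmem (N + 1) (n + 1) (by omega))
      have h2 : dist (u (N + 1)) (v j) ≤ ε N / η :=
        hdiam N _ (hmem (N + 1) (j + 1) (by omega))
      have h3 := dist_triangle_left (v n) (v j) (u (N + 1))
      linarith
    · simpa using hε0.const_mul 2
  obtain ⟨x', hx'⟩ := cauchySeq_tendsto_of_complete hcau
  have hx'mem : ∀ k, x' ∈ S (u k) := by
    intro k
    refine (hclosed (u k)).mem_of_tendsto hx' (eventually_atTop.2 ⟨k, fun n hn => ?_⟩)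
    exact hmem k (n + 1) (by omega)
  refine ⟨x', hx'mem 0, ?_⟩
  intro y hy
  by_contra hcon
  have hyS : y ∈ S x' := not_lt.1 hcon
  have hyk : ∀ k, y ∈ S (u (k + 1)) := fun k => htrans _ _ _ (hx'mem (k + 1)) hyS
  have hvy : Tendsto v atTop (𝓝 y) := by
    rw [tendsto_iff_dist_tendsto_zero]
    refine squeeze_zero (fun k => dist_nonneg) (fun k => ?_) hε0
    exact hdiam k y (hyk k)
  exact hy (tendsto_nhds_unique hvy hx')

theorem ekeland [Nonempty X] (h : X → ℝ) (hlsc : LowerSemicontinuous h)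
    (hbdd : BddBelow (Set.range h)) (η : ℝ) (hη : 0 < η) :
    ∃ x : X, ∀ y : X, h x ≤ h y + η * dist x y := by
  obtain ⟨x, -, hx⟩ := ekeland_strong h hlsc hbdd η hη (Classical.arbitrary X)
  refine ⟨x, fun y => ?_⟩
  by_cases hy : y = x
  · subst hy; simp
  · exact (hx y hy).le

end Vale.Agent.H4.Ekeland
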