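import Mathlib

/-!
# Norms of Gaussian primes

If a rational prime `p` divides the norm of a Gaussian prime `z`, then the norm of `z` is at most
`p^2`.  Hence the norm of a Gaussian prime of norm greater than `841 = 29^2` is divisible by no
rational prime up to `29`.
-/

namespace Vale.Agent.H4

theorem gnorm (z : GaussianInt) : z.norm = z.re ^ 2 + z.im ^ 2 := by
  rw [Zsqrtd.norm_def]; ring

theorem norm_le_of_prime_dvd (z : GaussianInt) (hz : Prime z) (p : ℕ) (hp : p.Prime)
    (hd : (p : ℤ) ∣ z.norm) : z.norm ≤ (p : ℤ) ^ 2 := by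
  have hnn : 0 ≤ z.norm := Zsqrtd.norm_nonneg (by norm_num) z
  have hzN : z ∣ ((z.norm : ℤ) : GaussianInt) := ⟨star z, Zsqrtd.norm_eq_mul_conj z⟩
  have key : ∀ M : ℕ, z ∣ (M : GaussianInt) → z.norm ∣ (M : ℤ) * M := by
    rintro M ⟨w, hw⟩
    have h := congrArg Zsqrtd.norm hw
    rw [Zsqrtd.norm_natCast, Zsqrtd.norm_mul] at h
    exact ⟨w.norm, h⟩
  have hpos : 0 < z.norm := by
    rcases hnn.lt_or_eq with h | h
    · exact h
    · exfalso
      have h2 := gnorm z
      have hre : z.re = 0 := by nlinarith [sq_nonneg z.re, sq_nonneg z.im]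
      have him : z.im = 0 := by nlinarith [sq_nonneg z.re, sq_nonneg z.im]
      exact hz.ne_zero (Zsqrtd.ext hre him)
  have ex : ∃ M : ℕ, 0 < M ∧ z ∣ (M : GaussianInt) := by
    refine ⟨z.norm.natAbs, Int.natAbs_pos.mpr hpos.ne', ?_⟩
    have h : ((z.norm.natAbs : ℕ) : GaussianInt) = ((z.norm : ℤ) : GaussianInt) := by
      rw [← Int.cast_natCast, Int.natAbs_of_nonneg hnn]
    rw [h]; exact hzN
  classical
  obtain ⟨hq0, hzq⟩ := Nat.find_spec ex
  have hNq : z.norm ∣ ((Nat.find ex : ℕ) : ℤ) * (Nat.find ex : ℕ) := key _ hzq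
  have hpq : p ∣ Nat.find ex := by
    have h : p ∣ Nat.find ex * Nat.find ex := by exact_mod_cast dvd_trans hd hNq
    rcases (Nat.Prime.dvd_mul hp).mp h with h | h <;> exact h
  obtain ⟨q', hq'⟩ := hpq
  have hq'pos : 0 < q' := by
    rcases Nat.eq_zero_or_pos q' with h | h
    · rw [h] at hq'; omega
    · exact h
  have hzp : z ∣ (p : GaussianInt) := by
    have h1 : z ∣ (p : GaussianInt) * (q' : GaussianInt) := by
      have h : ((Nat.find ex : ℕ) : GaussianInt) = (p : GaussianInt) * (q' : GaussianInt) := by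
        rw [hq']; push_cast; ring
      rw [← h]; exact hzq
    rcases hz.dvd_or_dvd h1 with h | h
    · exact h
    · exfalso
      have hlt : q' < Nat.find ex := by
        have := hp.two_le
        nlinarith
      exact Nat.find_min ex hlt ⟨hq'pos, h⟩
  have h1 := key p hzp
  have h2 : z.norm ≤ (p : ℤ) * p :=
    Int.le_of_dvd (by have := hp.pos; positivity) h1
  nlinarith

theorem prime_norm_not_dvd (z : GaussianInt) (hz : Prime z) (hbig : 841 < z.norm) (p : ℕ)
    (hp : p.Prime) (hp29 : p ≤ 29) : ¬ (p : ℤ) ∣ z.norm := by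
  intro hd
  have h1 := norm_le_of_prime_dvd z hz p hp hd
  have h2 : (p : ℤ) ≤ 29 := by exact_mod_cast hp29
  have h3 : (0 : ℤ) ≤ p := by positivity
  nlinarith

/-- The coordinates of a Gaussian prime of norm greater than `841` have odd sum. -/
theorem prime_odd_sum (z : GaussianInt) (hz : Prime z) (hbig : 841 < z.norm) :
    (z.re + z.im) % 2 = 1 := by
  have h2 := prime_norm_not_dvd z hz hbig 2 Nat.prime_two (by norm_num)
  rw [gnorm] at h2
  by_contra hne
  apply h2
  have h0 : (z.re + z.im) % 2 = 0 := by omega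
  obtain ⟨k, hk⟩ : (2 : ℤ) ∣ z.re + z.im := Int.dvd_of_emod_eq_zero h0
  refine ⟨2 * k ^ 2 - z.re * z.im, ?_⟩
  have : z.re ^ 2 + z.im ^ 2 = (z.re + z.im) ^ 2 - 2 * (z.re * z.im) := by ring
  rw [this, hk]; push_cast; ring

end Vale.Agent.H4
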