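import Vale.Agent.H4.Sweep
import Vale.Agent.H4.Checks
import Vale.Agent.H4.GaussPrime

/-!
# From Gaussian primes to sieved integer walks
-/

namespace Vale.Agent.H4

/-- Cells that survive the sieve by `2, 3, 5, 13, 17, 29`. -/
def Opn2 (a b : ℤ) : Prop := (a + b) % 2 = 1 ∧ Opn a b

/-- A Gaussian prime of norm greater than `841`, reflected in either axis, survives the sieve. -/
theorem opn2_of_prime (z : GaussianInt) (hz : Prime z) (hbig : 841 < z.norm) (ε δ : ℤ)
    (hε : ε = 1 ∨ ε = -1) (hδ : δ = 1 ∨ δ = -1) : Opn2 (ε * z.re) (δ * z.im) := by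
  have ho := prime_odd_sum z hz hbig
  have hp := fun p hp hp29 => prime_norm_not_dvd z hz hbig p hp hp29
  have e : (ε * z.re) ^ 2 + (δ * z.im) ^ 2 = z.norm := by
    rw [gnorm]
    rcases hε with rfl | rfl <;> rcases hδ with rfl | rfl <;> ring
  refine ⟨?_, ?_⟩
  · rcases hε with rfl | rfl <;> rcases hδ with rfl | rfl <;> omega
  · unfold Opn
    rw [e]
    exact ⟨hp 3 (by norm_num) (by norm_num), hp 5 (by norm_num) (by norm_num),
      hp 13 (by norm_num) (by norm_num), hp 17 (by norm_num) (by norm_num),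
      hp 29 (by norm_num) (by norm_num)⟩

/-- There is no infinite walk through sieved cells with steps of length at most `sqrt 8` along
which the coordinate sum increases. -/
theorem walk_X (a b : ℕ → ℤ) (hop : ∀ n, Opn2 (a n) (b n))
    (hstep : ∀ n, (a (n + 1) - a n) ^ 2 + (b (n + 1) - b n) ^ 2 ≤ 8)
    (hinc : ∀ n, a n + b n < a (n + 1) + b (n + 1)) : False := by
  refine no_int_walk [1, 2, 0] [2] 700 check_X (by norm_num) (by decide) (by decide) a b
    (hop 0).1 (fun n => (hop n).2) ?_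
  intro j
  have ho := (hop j).1
  have ho1 := (hop (j + 1)).1
  have hs := hstep j
  have hi := hinc j
  generalize a (j + 1) = a' at *
  generalize b (j + 1) = b' at *
  generalize a j = a0 at *
  generalize b j = b0 at *
  have h1 : -2 ≤ a' - a0 ∧ a' - a0 ≤ 2 := by
    constructor <;> nlinarith [sq_nonneg (b' - b0)]
  have h2 : -2 ≤ b' - b0 ∧ b' - b0 ≤ 2 := by
    constructor <;> nlinarith [sq_nonneg (a' - a0)]
  have hcases : (a' = a0 + 1 ∧ b' = b0 + 1) ∨ (a' = a0 + 2 ∧ b' = b0) ∨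
      (a' = a0 ∧ b' = b0 + 2) ∨ (a' = a0 + 2 ∧ b' = b0 + 2) := by omega
  rcases hcases with ⟨ha, hb⟩ | ⟨ha, hb⟩ | ⟨ha, hb⟩ | ⟨ha, hb⟩
  · exact Or.inl ⟨1, by simp, by simp [ha], by simp [hb]; ring⟩
  · exact Or.inl ⟨2, by simp, by simp [ha], by simp [hb]⟩
  · exact Or.inl ⟨0, by simp, by simp [ha], by simp [hb]⟩
  · exact Or.inr ⟨2, by simp, by simp [ha], by simp [hb]; ring⟩

end Vale.Agent.H4
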