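import Vale.Agent.H4.Cone
import Vale.Agent.H4.Angle

/-!
# Walks of nearly constant heading on the Gaussian primes, steps at most `sqrt 10`
-/

namespace Vale.Agent.H4

/-- The statement for walks all of whose vertices have norm greater than `841`. -/
theorem heading_big (w : ℕ → GaussianInt) (hprime : ∀ j, Prime (w j))
    (hbig : ∀ j, 841 < (w j).norm) (hlen : ∀ j, Zsqrtd.norm (w (j + 1) - w j) ≤ 10)
    (hang : ∀ m n, InnerProductGeometry.angle (GaussianInt.toComplex (w (m + 1) - w m))
      (GaussianInt.toComplex (w (n + 1) - w n)) ≤ Real.pi / 4) : False := by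
  have hint := fun m n => angle_int _ _ (hang m n)
  simp only [Zsqrtd.re_sub, Zsqrtd.im_sub] at hint
  have hlen' : ∀ n, ((w (n + 1)).re - (w n).re) ^ 2 + ((w (n + 1)).im - (w n).im) ^ 2 ≤ 10 := by
    intro n
    have h := hlen n
    rw [gnorm] at h
    simpa only [Zsqrtd.re_sub, Zsqrtd.im_sub] using h
  have hop : ∀ j, Opn2 (w j).re (w j).im := by
    intro j
    have h := opn2_of_prime _ (hprime j) (hbig j) 1 1 (Or.inl rfl) (Or.inl rfl)
    simpa only [one_mul] using h
  refine py_false (fun j => (w j).re) (fun j => (w j).im) ⟨hop, ?_, ?_⟩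
  · intro j
    have h1 := (hop j).1
    have h2 := (hop (j + 1)).1
    have hnz := (hint j j).1
    refine mem_V20 _ _ (hlen' j) ?_ ?_
    · by_contra hcon
      have e1 : (w (j + 1)).re - (w j).re = 0 := by
        by_contra h; exact hcon (Or.inl h)
      have e2 : (w (j + 1)).im - (w j).im = 0 := by
        by_contra h; exact hcon (Or.inr h)
      rw [e1, e2] at hnz
      simp at hnz
    · show ((w (j + 1)).re - (w j).re + ((w (j + 1)).im - (w j).im)) % 2 = 0
      clear hnz
      omega
  · intro m n
    simp only [cmpb, Bool.and_eq_true, decide_eq_true_eq]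
    exact ⟨le_of_lt (hint m n).1, (hint m n).2⟩

/-- There is no infinite sequence of Gaussian primes with steps of length at most `sqrt 10` in
which any two steps make an angle of at most `π / 4`. -/
theorem heading (z : ℕ → GaussianInt) (hprime : ∀ n, Prime (z n))
    (hlen : ∀ n, Zsqrtd.norm (z (n + 1) - z n) ≤ 10)
    (hang : ∀ m n, InnerProductGeometry.angle (GaussianInt.toComplex (z (m + 1) - z m))
      (GaussianInt.toComplex (z (n + 1) - z n)) ≤ Real.pi / 4) : False := by
  have hint := fun m n => angle_int _ _ (hang m n)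
  simp only [Zsqrtd.re_sub, Zsqrtd.im_sub] at hint
  have hlen0 : ((z (0 + 1)).re - (z 0).re) ^ 2 + ((z (0 + 1)).im - (z 0).im) ^ 2 ≤ 10 := by
    have h := hlen 0
    rw [gnorm] at h
    simpa only [Zsqrtd.re_sub, Zsqrtd.im_sub] using h
  have hgrow : ∀ n, (z 0).re * ((z (0 + 1)).re - (z 0).re)
      + (z 0).im * ((z (0 + 1)).im - (z 0).im) + n
      ≤ (z n).re * ((z (0 + 1)).re - (z 0).re) + (z n).im * ((z (0 + 1)).im - (z 0).im) := by
    intro n
    induction n with
    | zero => simp
    | succ n ih =>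
      have h := (hint n 0).1
      push_cast
      nlinarith
  have hbig : ∀ j, 841 < (z ((92 - ((z 0).re * ((z (0 + 1)).re - (z 0).re)
      + (z 0).im * ((z (0 + 1)).im - (z 0).im))).toNat + j)).norm := by
    intro j
    have h := hgrow ((92 - ((z 0).re * ((z (0 + 1)).re - (z 0).re)
      + (z 0).im * ((z (0 + 1)).im - (z 0).im))).toNat + j)
    push_cast at h
    rw [gnorm]
    generalize z ((92 - ((z 0).re * ((z (0 + 1)).re - (z 0).re)
      + (z 0).im * ((z (0 + 1)).im - (z 0).im))).toNat + j) = w at *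
    generalize (z (0 + 1)).re - (z 0).re = x0 at *
    generalize (z (0 + 1)).im - (z 0).im = y0 at *
    have h92 : 92 ≤ w.re * x0 + w.im * y0 := by omega
    have hsq : 8464 ≤ (w.re * x0 + w.im * y0) ^ 2 := by nlinarith
    have hcs : (w.re * x0 + w.im * y0) ^ 2 ≤ (w.re ^ 2 + w.im ^ 2) * (x0 ^ 2 + y0 ^ 2) := by
      nlinarith [sq_nonneg (w.re * y0 - w.im * x0)]
    have hN : 0 ≤ w.re ^ 2 + w.im ^ 2 := by positivity
    nlinarith
  exact heading_big
    (fun j => z ((92 - ((z 0).re * ((z (0 + 1)).re - (z 0).re)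
      + (z 0).im * ((z (0 + 1)).im - (z 0).im))).toNat + j))
    (fun j => hprime _) hbig (fun j => hlen _) (fun m n => hang _ _)

end Vale.Agent.H4
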