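import Vale.Agent.H4.Strip

/-!
# Gaussian primes in a slowly widening region around a line

No infinite sequence of distinct Gaussian primes with bounded steps stays in a region around a
real line whose width grows like the square root of `log N / log log N`, `N` the norm.

* `short_vec_bd`: Dirichlet approximation with a bound on the length of the vector.
* `log_fact_le`: `log n! ≤ n log n`.
* `horn_point`: a point of the region whose position along the line is bounded has bounded norm.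
* `horn_rate`: the elementary estimate for `l / (1 + log (1 + l))`.
* `horn_walk_finite`: the theorem.
-/

namespace Vale.Agent.H4

theorem short_vec_bd (a b : ℝ) :
    ∃ Λ : ℝ, 1 ≤ Λ ∧ ∀ M : ℕ, 0 < M → ∃ u v : ℤ, (u ≠ 0 ∨ v ≠ 0) ∧
      |(M : ℝ) * (a * u + b * v)| ≤ 1 ∧ (u : ℝ) ^ 2 + (v : ℝ) ^ 2 ≤ Λ * (M : ℝ) ^ 2 := by
  by_cases hb : b = 0
  · refine ⟨1, le_refl _, fun M hM => ⟨0, 1, Or.inr one_ne_zero, ?_, ?_⟩⟩
    · simp [hb]
    · have h1 : (1 : ℝ) ≤ M := by exact_mod_cast hM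
      push_cast
      nlinarith
  · have hbpos : 0 < |b| := abs_pos.mpr hb
    have ha0 : 0 ≤ |a| := abs_nonneg a
    have hq0 : 0 ≤ |a| / |b| := div_nonneg ha0 hbpos.le
    refine ⟨(|b| + 2) ^ 2 + ((|b| + 2) * (|a| / |b|) + 1) ^ 2, ?_, ?_⟩
    · nlinarith [sq_nonneg ((|b| + 2) * (|a| / |b|) + 1)]
    · intro M hM
      have hM1 : (1 : ℝ) ≤ M := by exact_mod_cast hM
      have hM0 : (0 : ℝ) ≤ M := by positivity
      obtain ⟨j, k, hk0, hkn, h⟩ :=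
        Real.exists_int_int_abs_mul_sub_le (a / b) (n := ⌈(M : ℝ) * |b|⌉₊ + 1) (by omega)
      have hn : (M : ℝ) * |b| ≤ ((⌈(M : ℝ) * |b|⌉₊ + 1 : ℕ) : ℝ) := by
        push_cast
        have := Nat.le_ceil ((M : ℝ) * |b|)
        linarith
      have hn2 : ((⌈(M : ℝ) * |b|⌉₊ + 1 : ℕ) : ℝ) ≤ (M : ℝ) * |b| + 2 := by
        push_cast
        have := Nat.ceil_lt_add_one (mul_nonneg hM0 hbpos.le)
        linarith
      have hn0 : (0 : ℝ) < ((⌈(M : ℝ) * |b|⌉₊ + 1 : ℕ) : ℝ) + 1 := by positivity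
      have hfrac : |(k : ℝ) * (a / b) - j| ≤ 1 := by
        refine le_trans h ?_
        rw [div_le_one hn0]
        have : (0 : ℝ) ≤ ((⌈(M : ℝ) * |b|⌉₊ + 1 : ℕ) : ℝ) := by positivity
        linarith
      have hkR0 : (0 : ℝ) < k := by exact_mod_cast hk0
      have hkR : (k : ℝ) ≤ (M : ℝ) * |b| + 2 := by
        have : (k : ℝ) ≤ ((⌈(M : ℝ) * |b|⌉₊ + 1 : ℕ) : ℝ) := by exact_mod_cast hkn
        linarith
      have hkM : (k : ℝ) ≤ (M : ℝ) * (|b| + 2) := by nlinarith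
      refine ⟨k, -j, Or.inl hk0.ne', ?_, ?_⟩
      · have e : (M : ℝ) * (a * k + b * ((-j : ℤ) : ℝ))
            = ((M : ℝ) * b) * ((k : ℝ) * (a / b) - j) := by
          push_cast
          field_simp
          ring
        rw [e, abs_mul, abs_mul, abs_of_nonneg hM0]
        calc (M : ℝ) * |b| * |(k : ℝ) * (a / b) - j|
            ≤ (M : ℝ) * |b| * (1 / (((⌈(M : ℝ) * |b|⌉₊ + 1 : ℕ) : ℝ) + 1)) := by
              apply mul_le_mul_of_nonneg_left h (by positivity)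
          _ ≤ 1 := by
              rw [mul_one_div, div_le_one hn0]
              linarith
      · have hj : |(j : ℝ)| ≤ (M : ℝ) * ((|b| + 2) * (|a| / |b|) + 1) := by
          have e : (j : ℝ) = (k : ℝ) * (a / b) - ((k : ℝ) * (a / b) - j) := by ring
          have h1 : |(k : ℝ) * (a / b)| = (k : ℝ) * (|a| / |b|) := by
            rw [abs_mul, abs_div, abs_of_pos hkR0]
          have h2 : |(j : ℝ)| ≤ (k : ℝ) * (|a| / |b|) + 1 := by
            rw [e]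
            calc |(k : ℝ) * (a / b) - ((k : ℝ) * (a / b) - j)|
                ≤ |(k : ℝ) * (a / b)| + |(k : ℝ) * (a / b) - j| := abs_sub _ _
              _ ≤ (k : ℝ) * (|a| / |b|) + 1 := by rw [h1]; linarith
          have h3 : (k : ℝ) * (|a| / |b|) ≤ (M : ℝ) * (|b| + 2) * (|a| / |b|) :=
            mul_le_mul_of_nonneg_right hkM hq0
          nlinarith
        have hk2 : (k : ℝ) ^ 2 ≤ ((M : ℝ) * (|b| + 2)) ^ 2 :=
          pow_le_pow_left₀ hkR0.le hkM 2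
        have hj2 : (j : ℝ) ^ 2 ≤ ((M : ℝ) * ((|b| + 2) * (|a| / |b|) + 1)) ^ 2 := by
          rw [← sq_abs (j : ℝ)]
          exact pow_le_pow_left₀ (abs_nonneg _) hj 2
        push_cast
        nlinarith

theorem log_fact_le (n : ℕ) :
    Real.log ((n.factorial : ℕ) : ℝ) ≤ (n : ℝ) * Real.log (n : ℝ) := by
  have h1 : ((n.factorial : ℕ) : ℝ) ≤ (n : ℝ) ^ n := by
    exact_mod_cast Nat.factorial_le_pow n
  have h2 : (0 : ℝ) < ((n.factorial : ℕ) : ℝ) := by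
    exact_mod_cast Nat.factorial_pos n
  calc Real.log ((n.factorial : ℕ) : ℝ) ≤ Real.log ((n : ℝ) ^ n) := Real.log_le_log h2 h1
    _ = (n : ℝ) * Real.log (n : ℝ) := Real.log_pow n n

theorem one_le_gnorm (p : GaussianInt) (hp : p ≠ 0) : 1 ≤ p.norm := by
  have h2 := gnorm p
  by_contra hcon
  have hre : p.re = 0 := by nlinarith [sq_nonneg p.re, sq_nonneg p.im]
  have him : p.im = 0 := by nlinarith [sq_nonneg p.re, sq_nonneg p.im]
  exact hp (Zsqrtd.ext hre him)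

/-- The elementary estimate behind the width of the region. -/
theorem horn_rate (l lC n : ℝ) (hl : 0 ≤ l) (hlC : 0 ≤ lC) (hn : 1 ≤ n)
    (hU : l ≤ lC + 4 * n * Real.log n) : l / (1 + Real.log (1 + l)) ≤ lC + 4 * n := by
  have hlogn : 0 ≤ Real.log n := Real.log_nonneg hn
  have h1 : 0 ≤ Real.log (1 + l) := Real.log_nonneg (by linarith)
  rcases le_or_gt l (n - 1) with h | h
  · have : l / (1 + Real.log (1 + l)) ≤ l := div_le_self hl (by linarith)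
    linarith
  · have h2 : Real.log n ≤ Real.log (1 + l) := Real.log_le_log (by linarith) (by linarith)
    have hpos : 0 < 1 + Real.log (1 + l) := by linarith
    rw [div_le_iff₀ hpos]
    nlinarith [mul_nonneg hlC h1, mul_nonneg (by linarith : (0 : ℝ) ≤ n) h1,
      mul_nonneg (by linarith : (0 : ℝ) ≤ n) (sub_nonneg.mpr h2)]

/-- A point of the region whose position along the line is at most `P` in absolute value has
bounded norm. -/
theorem horn_point (a b c B : ℝ) (hρ : 0 < a ^ 2 + b ^ 2) (p : GaussianInt) (hp : p ≠ 0)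
    (hh : (a * p.re + b * p.im - c) ^ 2 ≤ (a ^ 2 + b ^ 2) *
      (B + Real.log (p.norm) / (32 * (1 + Real.log (1 + Real.log (p.norm))))))
    (P : ℝ) (hP : |-b * p.re + a * p.im| ≤ P) :
    ((p.norm : ℤ) : ℝ) ≤ 4 * |B| + 8 + (4 * c ^ 2 + 2 * P ^ 2) / (a ^ 2 + b ^ 2) := by
  have hN1 : (1 : ℝ) ≤ ((p.norm : ℤ) : ℝ) := by exact_mod_cast one_le_gnorm p hp
  generalize hN : ((p.norm : ℤ) : ℝ) = N at hh hN1 ⊢
  have hl0 : 0 ≤ Real.log N := Real.log_nonneg hN1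
  have hll0 : 0 ≤ Real.log (1 + Real.log N) := Real.log_nonneg (by linarith)
  have hfrac : Real.log N / (32 * (1 + Real.log (1 + Real.log N))) ≤ Real.log N :=
    div_le_self hl0 (by linarith)
  have hlog : Real.log N ≤ N / 4 + 2 := by
    have h1 : Real.log (N / 4) ≤ N / 4 - 1 := Real.log_le_sub_one_of_pos (by linarith)
    have h2 : Real.log (4 : ℝ) ≤ 4 - 1 := Real.log_le_sub_one_of_pos (by norm_num)
    have h3 : Real.log N = Real.log (N / 4) + Real.log 4 := by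
      rw [← Real.log_mul (by linarith) (by norm_num)]
      congr 1
      ring
    linarith
  have hperp : (a * p.re + b * p.im - c) ^ 2 ≤ (a ^ 2 + b ^ 2) * (|B| + (N / 4 + 2)) := by
    refine le_trans hh (mul_le_mul_of_nonneg_left ?_ hρ.le)
    have := le_abs_self B
    linarith
  have hid : (a * p.re + b * p.im) ^ 2 + (-b * p.re + a * p.im) ^ 2 = (a ^ 2 + b ^ 2) * N := by
    rw [← hN, gnorm]; push_cast; ring
  have hpos2 : (-b * p.re + a * p.im) ^ 2 ≤ P ^ 2 := by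
    rw [← sq_abs (-b * (p.re : ℝ) + a * p.im)]
    exact pow_le_pow_left₀ (abs_nonneg _) hP 2
  have hsum : (a * p.re + b * p.im) ^ 2 ≤ 2 * (a * p.re + b * p.im - c) ^ 2 + 2 * c ^ 2 := by
    nlinarith [sq_nonneg (a * p.re + b * p.im - 2 * c)]
  have hkey : (a ^ 2 + b ^ 2) * N ≤ (a ^ 2 + b ^ 2) * (4 * |B| + 8) + (4 * c ^ 2 + 2 * P ^ 2) := by
    nlinarith
  have e : 4 * |B| + 8 + (4 * c ^ 2 + 2 * P ^ 2) / (a ^ 2 + b ^ 2)
      = ((a ^ 2 + b ^ 2) * (4 * |B| + 8) + (4 * c ^ 2 + 2 * P ^ 2)) / (a ^ 2 + b ^ 2) := by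
    field_simp
  rw [e, le_div_iff₀ hρ]
  linarith

/-- One step of norm at most `D` changes the position along the line by at most
`(|a| + |b|) D`. -/
theorem step_along (z w : GaussianInt) (D : ℕ) (a b : ℝ) (h : Zsqrtd.norm (w - z) ≤ D) :
    |(-b * w.re + a * w.im) - (-b * z.re + a * z.im)| ≤ (|a| + |b|) * D := by
  have ha0 : 0 ≤ |a| := abs_nonneg a
  have hb0 : 0 ≤ |b| := abs_nonneg b
  rw [gnorm] at h
  simp only [Zsqrtd.re_sub, Zsqrtd.im_sub] at h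
  have h1 : |((w.re : ℝ) - z.re)| ≤ D := by
    have h1a : (w.re - z.re) ≤ (D : ℤ) := by
      nlinarith [Int.le_self_sq (w.re - z.re), sq_nonneg (w.im - z.im)]
    have h1b : -(w.re - z.re) ≤ (D : ℤ) := by
      nlinarith [Int.le_self_sq (-(w.re - z.re)), sq_nonneg (w.im - z.im)]
    rw [abs_le]
    constructor
    · have : (-(D : ℤ) : ℝ) ≤ ((w.re - z.re : ℤ) : ℝ) := by
        exact_mod_cast (by omega : -(D : ℤ) ≤ w.re - z.re)
      push_cast at this; linarith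
    · have : ((w.re - z.re : ℤ) : ℝ) ≤ ((D : ℤ) : ℝ) := by
        exact_mod_cast h1a
      push_cast at this; linarith
  have h2 : |((w.im : ℝ) - z.im)| ≤ D := by
    have h2a : (w.im - z.im) ≤ (D : ℤ) := by
      nlinarith [Int.le_self_sq (w.im - z.im), sq_nonneg (w.re - z.re)]
    have h2b : -(w.im - z.im) ≤ (D : ℤ) := by
      nlinarith [Int.le_self_sq (-(w.im - z.im)), sq_nonneg (w.re - z.re)]
    rw [abs_le]
    constructor
    · have : (-(D : ℤ) : ℝ) ≤ ((w.im - z.im : ℤ) : ℝ) := by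
        exact_mod_cast (by omega : -(D : ℤ) ≤ w.im - z.im)
      push_cast at this; linarith
    · have : ((w.im - z.im : ℤ) : ℝ) ≤ ((D : ℤ) : ℝ) := by
        exact_mod_cast h2a
      push_cast at this; linarith
  have e : (-b * w.re + a * w.im) - (-b * z.re + a * z.im)
      = -b * ((w.re : ℝ) - z.re) + a * ((w.im : ℝ) - z.im) := by
    ring
  rw [e]
  calc |-b * ((w.re : ℝ) - z.re) + a * ((w.im : ℝ) - z.im)|
      ≤ |-b * ((w.re : ℝ) - z.re)| + |a * ((w.im : ℝ) - z.im)| := abs_add_le _ _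
    _ = |b| * |((w.re : ℝ) - z.re)| + |a| * |((w.im : ℝ) - z.im)| := by
        rw [abs_mul, abs_mul, abs_neg]
    _ ≤ |b| * D + |a| * D :=
        add_le_add (mul_le_mul_of_nonneg_left h1 hb0) (mul_le_mul_of_nonneg_left h2 ha0)
    _ = (|a| + |b|) * D := by ring

/-- The two blocking centres `± M (u, v)`: near the line, at positions `± μ` along it, with
`M^2 (a^2 + b^2) - 1 ≤ μ^2 ≤ (a^2 + b^2) Λ M^4`. -/
theorem horn_centres (a b c Λ M : ℝ) (u0 v0 : ℤ) (hg0 : u0 ≠ 0 ∨ v0 ≠ 0)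
    (hδ0 : |M * (a * u0 + b * v0)| ≤ 1) (huv0 : (u0 : ℝ) ^ 2 + (v0 : ℝ) ^ 2 ≤ Λ * M ^ 2) :
    ∃ (u v : ℤ) (μ : ℝ), (u ≠ 0 ∨ v ≠ 0) ∧ 0 ≤ μ ∧
      -b * (M * u) + a * (M * v) = μ ∧
      -b * (M * ((-u : ℤ) : ℝ)) + a * (M * ((-v : ℤ) : ℝ)) = -μ ∧
      |a * (M * u) + b * (M * v) - c| ≤ |c| + 1 ∧
      |a * (M * ((-u : ℤ) : ℝ)) + b * (M * ((-v : ℤ) : ℝ)) - c| ≤ |c| + 1 ∧
      M ^ 2 * (a ^ 2 + b ^ 2) - 1 ≤ μ ^ 2 ∧ μ ^ 2 ≤ (a ^ 2 + b ^ 2) * Λ * M ^ 4 := by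
  -- choose the sign of the short vector
  obtain ⟨u, v, hg, hδ, huv, hμ0⟩ : ∃ u v : ℤ, (u ≠ 0 ∨ v ≠ 0) ∧
      |M * (a * u + b * v)| ≤ 1 ∧ (u : ℝ) ^ 2 + (v : ℝ) ^ 2 ≤ Λ * M ^ 2 ∧
      0 ≤ M * (-b * u + a * v) := by
    rcases le_total 0 (M * (-b * u0 + a * v0)) with h | h
    · exact ⟨u0, v0, hg0, hδ0, huv0, h⟩
    · refine ⟨-u0, -v0, ?_, ?_, ?_, ?_⟩
      · rcases hg0 with h' | h'
        · exact Or.inl (neg_ne_zero.mpr h')
        · exact Or.inr (neg_ne_zero.mpr h')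
      · have e : M * (a * ((-u0 : ℤ) : ℝ) + b * ((-v0 : ℤ) : ℝ))
            = -(M * (a * u0 + b * v0)) := by
          push_cast; ring
        rw [e, abs_neg]; exact hδ0
      · push_cast
        linarith
      · have e : M * (-b * ((-u0 : ℤ) : ℝ) + a * ((-v0 : ℤ) : ℝ))
            = -(M * (-b * u0 + a * v0)) := by
          push_cast; ring
        rw [e]; linarith
  clear hg0 hδ0 huv0
  obtain ⟨μ, hμdef⟩ : ∃ μ : ℝ, μ = M * (-b * u + a * v) := ⟨_, rfl⟩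
  obtain ⟨δ, hδdef⟩ : ∃ δ : ℝ, δ = M * (a * u + b * v) := ⟨_, rfl⟩
  rw [← hμdef] at hμ0
  rw [← hδdef] at hδ
  have hsq : δ ^ 2 + μ ^ 2 = M ^ 2 * (a ^ 2 + b ^ 2) * ((u : ℝ) ^ 2 + (v : ℝ) ^ 2) := by
    rw [hδdef, hμdef]; ring
  have huv1 : (1 : ℝ) ≤ (u : ℝ) ^ 2 + (v : ℝ) ^ 2 := by
    have h : (1 : ℤ) ≤ u ^ 2 + v ^ 2 := by
      rcases hg with h | h
      · have h1 : 0 < u ^ 2 := by positivity
        have h2 : 0 ≤ v ^ 2 := sq_nonneg v
        omega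
      · have h1 : 0 < v ^ 2 := by positivity
        have h2 : 0 ≤ u ^ 2 := sq_nonneg u
        omega
    exact_mod_cast h
  have hδ2 : δ ^ 2 ≤ 1 := by
    rw [← sq_abs δ]
    exact pow_le_one₀ (abs_nonneg δ) hδ
  have h0 : 0 ≤ M ^ 2 * (a ^ 2 + b ^ 2) := by positivity
  have h1 : M ^ 2 * (a ^ 2 + b ^ 2)
      ≤ M ^ 2 * (a ^ 2 + b ^ 2) * ((u : ℝ) ^ 2 + (v : ℝ) ^ 2) :=
    le_mul_of_one_le_right h0 huv1
  have h2 : M ^ 2 * (a ^ 2 + b ^ 2) * ((u : ℝ) ^ 2 + (v : ℝ) ^ 2)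
      ≤ M ^ 2 * (a ^ 2 + b ^ 2) * (Λ * M ^ 2) :=
    mul_le_mul_of_nonneg_left huv h0
  have h3 : M ^ 2 * (a ^ 2 + b ^ 2) * (Λ * M ^ 2) = (a ^ 2 + b ^ 2) * Λ * M ^ 4 := by ring
  refine ⟨u, v, μ, hg, hμ0, ?_, ?_, ?_, ?_, ?_, ?_⟩
  · rw [hμdef]; ring
  · rw [hμdef]; push_cast; ring
  · have e : a * (M * u) + b * (M * v) - c = δ - c := by rw [hδdef]; ring
    rw [e]
    calc |δ - c| ≤ |δ| + |c| := abs_sub _ _
      _ ≤ |c| + 1 := by linarith
  · have e : a * (M * ((-u : ℤ) : ℝ)) + b * (M * ((-v : ℤ) : ℝ)) - c = -δ - c := by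
      rw [hδdef]; push_cast; ring
    rw [e]
    calc |-δ - c| ≤ |-δ| + |c| := abs_sub _ _
      _ ≤ |c| + 1 := by rw [abs_neg]; linarith
  · linarith
  · have := sq_nonneg δ
    linarith

/-- A nonzero point of the region whose position along the line is at most `μ + w` in absolute
value, `μ` the position of a blocking centre for `M = (2 K + 1)!`, is close enough to the line
for the blocking disk of radius `sqrt K` to reach it. -/
theorem horn_loc (a b c B w Λ μ : ℝ) (hρ : 0 < a ^ 2 + b ^ 2) (hΛ1 : 1 ≤ Λ)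
    (K : ℕ)
    (hμup : μ ^ 2 ≤ (a ^ 2 + b ^ 2) * Λ * ((((2 * K + 1).factorial : ℕ) : ℝ)) ^ 4)
    (hKC4 : 2 * (a ^ 2 + b ^ 2) * (|B| + (Real.log (4 * |B| + 8
        + (4 * c ^ 2 + 4 * w ^ 2) / (a ^ 2 + b ^ 2) + 4 * Λ) + 4) / 32)
        + 2 * (|c| + 1) ^ 2 + w ^ 2 ≤ (a ^ 2 + b ^ 2) * K / 2)
    (p : GaussianInt) (hp : p ≠ 0)
    (hh : (a * p.re + b * p.im - c) ^ 2 ≤ (a ^ 2 + b ^ 2) *
      (B + Real.log (p.norm) / (32 * (1 + Real.log (1 + Real.log (p.norm))))))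
    (hpos : |-b * p.re + a * p.im| ≤ μ + w) :
    ((|a * p.re + b * p.im - c| + |c| + 1) ^ 2 + w ^ 2) / (a ^ 2 + b ^ 2) ≤ K := by
  have hB0 : 0 ≤ |B| := abs_nonneg B
  have hMge : 2 * K + 1 ≤ (2 * K + 1).factorial := Nat.self_le_factorial _
  obtain ⟨M, hMdef⟩ : ∃ M : ℝ, M = (((2 * K + 1).factorial : ℕ) : ℝ) := ⟨_, rfl⟩
  rw [← hMdef] at hμup
  have hMK : 2 * (K : ℝ) + 1 ≤ M := by
    rw [hMdef]; exact_mod_cast hMge
  have hK0 : (0 : ℝ) ≤ K := by positivity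
  have hM1 : 1 ≤ M := by linarith
  obtain ⟨C1, hC1def⟩ : ∃ C1 : ℝ,
      C1 = 4 * |B| + 8 + (4 * c ^ 2 + 4 * w ^ 2) / (a ^ 2 + b ^ 2) + 4 * Λ := ⟨_, rfl⟩
  rw [← hC1def] at hKC4
  have hfr0 : 0 ≤ (4 * c ^ 2 + 4 * w ^ 2) / (a ^ 2 + b ^ 2) := by positivity
  have hC1 : 1 ≤ C1 := by
    rw [hC1def]
    linarith
  obtain ⟨lC, hlCdef⟩ : ∃ lC : ℝ, lC = Real.log C1 := ⟨_, rfl⟩
  rw [← hlCdef] at hKC4
  have hlC0 : 0 ≤ lC := by rw [hlCdef]; exact Real.log_nonneg hC1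
  have hN1 : (1 : ℝ) ≤ ((p.norm : ℤ) : ℝ) := by exact_mod_cast one_le_gnorm _ hp
  have hNb := horn_point a b c B hρ p hp hh (μ + w) hpos
  generalize hN : ((p.norm : ℤ) : ℝ) = N at hh hN1 hNb
  have hNC : N ≤ C1 * M ^ 4 := by
    have h1 : (μ + w) ^ 2 ≤ 2 * μ ^ 2 + 2 * w ^ 2 := by
      have := sq_nonneg (μ - w)
      linarith
    have h2 : (4 * c ^ 2 + 2 * (μ + w) ^ 2) / (a ^ 2 + b ^ 2)
        ≤ (4 * c ^ 2 + 4 * w ^ 2) / (a ^ 2 + b ^ 2) + 4 * Λ * M ^ 4 := by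
      rw [div_le_iff₀ hρ]
      have e : ((4 * c ^ 2 + 4 * w ^ 2) / (a ^ 2 + b ^ 2) + 4 * Λ * M ^ 4)
          * (a ^ 2 + b ^ 2)
          = (4 * c ^ 2 + 4 * w ^ 2) + 4 * ((a ^ 2 + b ^ 2) * Λ * M ^ 4) := by
        field_simp
      rw [e]; linarith
    have hM4 : 1 ≤ M ^ 4 := one_le_pow₀ hM1
    have h3 : 4 * |B| + 8 + (4 * c ^ 2 + 4 * w ^ 2) / (a ^ 2 + b ^ 2)
        ≤ (4 * |B| + 8 + (4 * c ^ 2 + 4 * w ^ 2) / (a ^ 2 + b ^ 2)) * M ^ 4 :=
      le_mul_of_one_le_right (by linarith) hM4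
    have e2 : C1 * M ^ 4 = (4 * |B| + 8 + (4 * c ^ 2 + 4 * w ^ 2) / (a ^ 2 + b ^ 2)) * M ^ 4
        + 4 * Λ * M ^ 4 := by
      rw [hC1def]; ring
    rw [e2]; linarith
  have hlogN : Real.log N
      ≤ lC + 4 * ((2 * K + 1 : ℕ) : ℝ) * Real.log ((2 * K + 1 : ℕ) : ℝ) := by
    have h1 : Real.log N ≤ Real.log (C1 * M ^ 4) := Real.log_le_log (by linarith) hNC
    have h2 : Real.log (C1 * M ^ 4) = Real.log C1 + 4 * Real.log M := by
      rw [Real.log_mul (by linarith) (by positivity), Real.log_pow]; push_cast; ring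
    have h3 : Real.log M ≤ ((2 * K + 1 : ℕ) : ℝ) * Real.log ((2 * K + 1 : ℕ) : ℝ) := by
      rw [hMdef]; exact log_fact_le (2 * K + 1)
    rw [hlCdef]; linarith
  have hrate := horn_rate (Real.log N) lC ((2 * K + 1 : ℕ) : ℝ) (Real.log_nonneg hN1) hlC0
    (by push_cast; linarith) hlogN
  have hperp : (a * p.re + b * p.im - c) ^ 2
      ≤ (a ^ 2 + b ^ 2) * (|B| + (lC + 4 * (2 * (K : ℝ) + 1)) / 32) := by
    refine le_trans hh (mul_le_mul_of_nonneg_left ?_ hρ.le)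
    have e : Real.log N / (32 * (1 + Real.log (1 + Real.log N)))
        = (Real.log N / (1 + Real.log (1 + Real.log N))) / 32 := by
      rw [div_div, mul_comm]
    rw [e]
    have := le_abs_self B
    push_cast at hrate
    linarith
  rw [div_le_iff₀ hρ]
  have h5 : (|a * p.re + b * p.im - c| + |c| + 1) ^ 2
      ≤ 2 * (a * p.re + b * p.im - c) ^ 2 + 2 * (|c| + 1) ^ 2 := by
    have h6 := sq_abs (a * p.re + b * p.im - c)
    have h7 := sq_nonneg (|a * p.re + b * p.im - c| - (|c| + 1))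
    linarith
  linarith

/-- A sequence of Gaussian primes with bounded steps that stays in the region
`dist(z, line)^2 ≤ B + log N(z) / (32 (1 + log (1 + log N(z))))` around a real line takes only
finitely many values. -/
theorem horn_walk_finite (z : ℕ → GaussianInt) (D : ℕ) (a b c B : ℝ) (hab : a ≠ 0 ∨ b ≠ 0)
    (hprime : ∀ n, Prime (z n))
    (hstep : ∀ n, Zsqrtd.norm (z (n + 1) - z n) ≤ D)
    (hhorn : ∀ n, (a * (z n).re + b * (z n).im - c) ^ 2 ≤ (a ^ 2 + b ^ 2) *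
      (B + Real.log ((z n).norm) / (32 * (1 + Real.log (1 + Real.log ((z n).norm)))))) :
    (Set.range z).Finite := by
  have hρ : 0 < a ^ 2 + b ^ 2 := by
    rcases hab with h | h
    · have := sq_pos_of_ne_zero h; nlinarith [sq_nonneg b]
    · have := sq_pos_of_ne_zero h; nlinarith [sq_nonneg a]
  have ha0 : 0 ≤ |a| := abs_nonneg a
  have hb0 : 0 ≤ |b| := abs_nonneg b
  have hD0 : (0 : ℝ) ≤ D := by positivity
  obtain ⟨σ, hσdef⟩ : ∃ σ : ℝ, σ = |a| + |b| + 1 := ⟨_, rfl⟩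
  obtain ⟨s, hsdef⟩ : ∃ s : ℝ, s = (|a| + |b|) * D := ⟨_, rfl⟩
  have hσ0 : 0 ≤ σ := by rw [hσdef]; positivity
  have hs0 : 0 ≤ s := by rw [hsdef]; positivity
  have hσ2 : a ^ 2 + b ^ 2 < σ ^ 2 := by
    rw [hσdef]
    nlinarith [sq_abs a, sq_abs b, mul_nonneg ha0 hb0]
  clear ha0 hb0 hD0
  obtain ⟨Λ, hΛ1, hΛ⟩ := short_vec_bd a b
  obtain ⟨C4, hC4def⟩ : ∃ C4 : ℝ, C4 = 2 * (a ^ 2 + b ^ 2) * (|B| + (Real.log (4 * |B| + 8
      + (4 * c ^ 2 + 4 * (σ + s) ^ 2) / (a ^ 2 + b ^ 2) + 4 * Λ) + 4) / 32)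
      + 2 * (|c| + 1) ^ 2 + (σ + s) ^ 2 := ⟨_, rfl⟩
  have hC40 : 0 ≤ C4 := by
    have hB0 : 0 ≤ |B| := abs_nonneg B
    have hfr0 : 0 ≤ (4 * c ^ 2 + 4 * (σ + s) ^ 2) / (a ^ 2 + b ^ 2) := by positivity
    have hl0 : 0 ≤ Real.log (4 * |B| + 8
        + (4 * c ^ 2 + 4 * (σ + s) ^ 2) / (a ^ 2 + b ^ 2) + 4 * Λ) :=
      Real.log_nonneg (by linarith)
    have h1 : 0 ≤ 2 * (a ^ 2 + b ^ 2) * (|B| + (Real.log (4 * |B| + 8
        + (4 * c ^ 2 + 4 * (σ + s) ^ 2) / (a ^ 2 + b ^ 2) + 4 * Λ) + 4) / 32) :=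
      mul_nonneg (by linarith) (by linarith)
    have h2 := sq_nonneg (|c| + 1)
    have h3 := sq_nonneg (σ + s)
    rw [hC4def]; linarith
  obtain ⟨q0, hq0def⟩ : ∃ q0 : ℝ, q0 = -b * (z 0).re + a * (z 0).im := ⟨_, rfl⟩
  have hq00 : 0 ≤ |q0| := abs_nonneg q0
  obtain ⟨K, hK⟩ := exists_nat_ge
    (2 * C4 / (a ^ 2 + b ^ 2) + ((|q0| + 1) ^ 2 + 2) / (a ^ 2 + b ^ 2) + 1)
  have hf1 : 0 ≤ 2 * C4 / (a ^ 2 + b ^ 2) := by positivity
  have hf2 : 0 ≤ ((|q0| + 1) ^ 2 + 2) / (a ^ 2 + b ^ 2) := by positivity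
  have hK1 : (1 : ℝ) ≤ K := by linarith
  have hKC4 : C4 ≤ (a ^ 2 + b ^ 2) * K / 2 := by
    have h : 2 * C4 / (a ^ 2 + b ^ 2) ≤ K := by linarith
    rw [div_le_iff₀ hρ] at h
    linarith
  have hKq : (|q0| + 1) ^ 2 + 2 ≤ (a ^ 2 + b ^ 2) * K := by
    have h : ((|q0| + 1) ^ 2 + 2) / (a ^ 2 + b ^ 2) ≤ K := by linarith
    rw [div_le_iff₀ hρ] at h
    linarith
  clear hK hf1 hf2
  rw [hC4def] at hKC4
  clear hC40 hC4def C4
  have hMpos : 0 < (2 * K + 1).factorial := Nat.factorial_pos _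
  have hMge : 2 * K + 1 ≤ (2 * K + 1).factorial := Nat.self_le_factorial _
  obtain ⟨u0, v0, hg0, hδ0, huv0⟩ := hΛ _ hMpos
  obtain ⟨M, hMdef⟩ : ∃ M : ℝ, M = (((2 * K + 1).factorial : ℕ) : ℝ) := ⟨_, rfl⟩
  have hMK : 2 * (K : ℝ) + 1 ≤ M := by
    rw [hMdef]; exact_mod_cast hMge
  rw [← hMdef] at hδ0 huv0
  obtain ⟨u, v, μ, hg, hμ0, epos, epos', hl, hl', hμlow0, hμup⟩ :=
    horn_centres a b c Λ M u0 v0 hg0 hδ0 huv0
  clear hg0 hδ0 huv0 hΛ
  have hg' : (-u ≠ 0 ∨ -v ≠ 0) := by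
    rcases hg with h | h
    · exact Or.inl (neg_ne_zero.mpr h)
    · exact Or.inr (neg_ne_zero.mpr h)
  have hμgt : |q0| + 1 < μ := by
    have h2 : (K : ℝ) ≤ M ^ 2 := by nlinarith
    have h3 : (a ^ 2 + b ^ 2) * K ≤ M ^ 2 * (a ^ 2 + b ^ 2) := by nlinarith
    by_contra hcon
    rw [not_lt] at hcon
    have : μ ^ 2 ≤ (|q0| + 1) ^ 2 := pow_le_pow_left₀ hμ0 hcon 2
    linarith
  clear hμlow0 hKq hMK hMge hMpos
  -- a prime of the region between the two centres is close to the line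
  have hloc : ∀ n, |-b * (z n).re + a * (z n).im| ≤ μ + (σ + s) →
      ((|a * (z n).re + b * (z n).im - c| + |c| + 1) ^ 2 + (σ + s) ^ 2) / (a ^ 2 + b ^ 2)
        ≤ K :=
    fun n hpos => horn_loc a b c B (σ + s) Λ μ hρ hΛ1 K
      (by rw [← hMdef]; exact hμup) hKC4 (z n) (hprime n).ne_zero (hhorn n) hpos
  clear hKC4 hμup
  -- the walk never passes the two centres
  have hinv : ∀ n, -μ - σ < (-b * (z n).re + a * (z n).im)
      ∧ (-b * (z n).re + a * (z n).im) < μ + σ := by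
    intro n
    induction n with
    | zero =>
      rw [← hq0def]
      have := abs_lt.mp (show |q0| < μ by linarith)
      constructor <;> linarith
    | succ n ih =>
      have hsn := abs_le.mp (step_along (z n) (z (n + 1)) D a b (hstep n))
      rw [← hsdef] at hsn
      constructor
      · by_contra hcon
        rw [not_lt] at hcon
        have hposb : |-b * (z (n + 1)).re + a * (z (n + 1)).im| ≤ μ + (σ + s) := by
          rw [abs_le]; constructor <;> linarith [ih.1, ih.2]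
        refine strip_block a b c (|a * (z (n + 1)).re + b * (z (n + 1)).im - c|) σ s hρ hσ2 hσ0
          K (hloc (n + 1) hposb) (-u) (-v) (z (n + 1)) hg' ?_ (le_refl _) ?_ ?_ (hprime (n + 1))
        · rw [← hMdef]; exact hl'
        · rw [← hMdef, epos', abs_of_nonpos (by linarith)]; linarith
        · rw [← hMdef, epos', abs_of_nonpos (by linarith)]; linarith [ih.1]
      · by_contra hcon
        rw [not_lt] at hcon
        have hposb : |-b * (z (n + 1)).re + a * (z (n + 1)).im| ≤ μ + (σ + s) := by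
          rw [abs_le]; constructor <;> linarith [ih.1, ih.2]
        refine strip_block a b c (|a * (z (n + 1)).re + b * (z (n + 1)).im - c|) σ s hρ hσ2 hσ0
          K (hloc (n + 1) hposb) u v (z (n + 1)) hg ?_ (le_refl _) ?_ ?_ (hprime (n + 1))
        · rw [← hMdef]; exact hl
        · rw [← hMdef, epos, abs_of_nonneg (by linarith)]; linarith
        · rw [← hMdef, epos, abs_of_nonneg (by linarith)]; linarith [ih.2]
  -- hence the walk is bounded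
  obtain ⟨Nb, hNb⟩ := exists_nat_ge
    (4 * |B| + 8 + (4 * c ^ 2 + 2 * (μ + σ) ^ 2) / (a ^ 2 + b ^ 2))
  have hsub : Set.range z ⊆ {p : GaussianInt | p.norm ≤ (Nb : ℤ)} := by
    rintro _ ⟨n, rfl⟩
    show (z n).norm ≤ (Nb : ℤ)
    obtain ⟨i1, i2⟩ := hinv n
    have hpos : |-b * (z n).re + a * (z n).im| ≤ μ + σ := by
      rw [abs_le]; constructor <;> linarith
    have h := horn_point a b c B hρ (z n) (hprime n).ne_zero (hhorn n) (μ + σ) hpos
    have h5 : (((z n).norm : ℤ) : ℝ) ≤ (Nb : ℝ) := le_trans h hNb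
    exact_mod_cast h5
  exact (finite_norm_le Nb).subset hsub

end Vale.Agent.H4
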