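import Vale.Agent.H4.Horn

/-!
# Gaussian primes in a region of logarithmic width around a line

No infinite sequence of distinct Gaussian primes with bounded steps stays in a region around a
real line whose squared width grows like `log N / 32`, `N` the norm.

The modulus is `pmod K = (2 K + 1) * K#`, with `K#` the product of the rational primes up to
`K`, so that `log (pmod K) ≤ 3 K`.

* `block_pr`: every `pmod K * g + d` with `g ≠ 0` and `2 ≤ N d ≤ K` is not prime (its norm is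
  divisible by a rational prime `p ≤ K` and is larger than `K ^ 2`).
* `logh_walk_finite`: the theorem.
-/

namespace Vale.Agent.H4

/-- The modulus: `2 K + 1` times the product of the rational primes up to `K`. -/
def pmod (K : ℕ) : ℕ := (2 * K + 1) * primorial K

theorem pmod_ge (K : ℕ) : 2 * K + 1 ≤ pmod K :=
  Nat.le_mul_of_pos_right _ (primorial_pos K)

theorem pmod_pos (K : ℕ) : 0 < pmod K := lt_of_lt_of_le (by omega) (pmod_ge K)

theorem pmod_le (K : ℕ) : pmod K ≤ 16 ^ K := by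
  have h1 : 2 * K + 1 ≤ 4 ^ K := by
    have h := Nat.lt_two_pow_self (n := 2 * K)
    have e : 2 ^ (2 * K) = 4 ^ K := by rw [pow_mul]; norm_num
    omega
  have h2 := primorial_le_four_pow K
  calc pmod K = (2 * K + 1) * primorial K := rfl
    _ ≤ 4 ^ K * 4 ^ K := Nat.mul_le_mul h1 h2
    _ = 16 ^ K := by rw [← mul_pow]; norm_num

theorem log_pmod_le (K : ℕ) : Real.log ((pmod K : ℕ) : ℝ) ≤ 3 * (K : ℝ) := by
  have h1 : ((pmod K : ℕ) : ℝ) ≤ (16 : ℝ) ^ K := by exact_mod_cast pmod_le K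
  have h2 : (0 : ℝ) < ((pmod K : ℕ) : ℝ) := by exact_mod_cast pmod_pos K
  have h3 : Real.log (16 : ℝ) ≤ 3 := by
    have e : (16 : ℝ) = 2 ^ 4 := by norm_num
    rw [e, Real.log_pow]
    have := Real.log_two_lt_d9
    push_cast
    linarith
  have hK : (0 : ℝ) ≤ K := by positivity
  calc Real.log ((pmod K : ℕ) : ℝ) ≤ Real.log ((16 : ℝ) ^ K) := Real.log_le_log h2 h1
    _ = (K : ℝ) * Real.log 16 := by rw [Real.log_pow]
    _ ≤ (K : ℝ) * 3 := mul_le_mul_of_nonneg_left h3 hK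
    _ = 3 * (K : ℝ) := by ring

theorem block_pr (K : ℕ) (g d : GaussianInt) (hg : g ≠ 0) (h2 : 2 ≤ d.norm) (hK : d.norm ≤ K) :
    ¬ Prime (((pmod K : ℕ) : GaussianInt) * g + d) := by
  intro hp
  have hMge := pmod_ge K
  -- a rational prime dividing the norm of `d` and the modulus
  have hpr : (d.norm.natAbs).minFac.Prime := Nat.minFac_prime (by omega)
  have hpn : (d.norm.natAbs).minFac ∣ d.norm.natAbs := Nat.minFac_dvd _
  have hpK : (d.norm.natAbs).minFac ≤ K := le_trans (Nat.minFac_le (by omega)) (by omega)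
  have hpM : (d.norm.natAbs).minFac ∣ pmod K :=
    Dvd.dvd.mul_left ((Nat.Prime.dvd_primorial_iff hpr).mpr hpK) _
  generalize (d.norm.natAbs).minFac = p at hpr hpn hpK hpM
  generalize hM : pmod K = M at hp hMge hpM
  have hpd : (p : ℤ) ∣ d.norm := by
    have h : (p : ℤ) ∣ ((d.norm.natAbs : ℕ) : ℤ) := by exact_mod_cast hpn
    rwa [Int.natAbs_of_nonneg (by omega)] at h
  have hpM' : (p : ℤ) ∣ (M : ℤ) := by exact_mod_cast hpM
  have hre : ((M : GaussianInt) * g + d).re = M * g.re + d.re := by simp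
  have him : ((M : GaussianInt) * g + d).im = M * g.im + d.im := by simp
  have hdvd : (p : ℤ) ∣ ((M : GaussianInt) * g + d).norm := by
    rw [gnorm, hre, him]
    have e : ((M : ℤ) * g.re + d.re) ^ 2 + ((M : ℤ) * g.im + d.im) ^ 2
        = d.norm + (M : ℤ) * ((M : ℤ) * g.re ^ 2 + 2 * g.re * d.re
          + (M : ℤ) * g.im ^ 2 + 2 * g.im * d.im) := by
      rw [gnorm]; ring
    rw [e]
    exact dvd_add hpd (Dvd.dvd.mul_right hpM' _)
  have hle := norm_le_of_prime_dvd _ hp p hpr hdvd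
  -- the norm is large
  have hbig : (K : ℤ) ^ 2 < ((M : GaussianInt) * g + d).norm := by
    rw [gnorm, hre, him]
    have hd := gnorm d
    have hMK : (2 * (K : ℤ) + 1) ≤ M := by exact_mod_cast hMge
    have hK0 : (0 : ℤ) ≤ K := by positivity
    have b1 : d.re ≤ K := by nlinarith [Int.le_self_sq d.re, sq_nonneg d.im]
    have b2 : -d.re ≤ K := by nlinarith [Int.le_self_sq (-d.re), sq_nonneg d.im]
    have b3 : d.im ≤ K := by nlinarith [Int.le_self_sq d.im, sq_nonneg d.re]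
    have b4 : -d.im ≤ K := by nlinarith [Int.le_self_sq (-d.im), sq_nonneg d.re]
    have hg' : g.re ≠ 0 ∨ g.im ≠ 0 := by
      by_contra hcon
      rw [not_or, not_not, not_not] at hcon
      exact hg (Zsqrtd.ext hcon.1 hcon.2)
    rcases hg' with h | h
    · rcases lt_or_gt_of_ne h with h | h
      · have h1 : (M : ℤ) * g.re + d.re ≤ -(K + 1) := by nlinarith
        nlinarith [sq_nonneg ((M : ℤ) * g.im + d.im)]
      · have h1 : (K : ℤ) + 1 ≤ (M : ℤ) * g.re + d.re := by nlinarith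
        nlinarith [sq_nonneg ((M : ℤ) * g.im + d.im)]
    · rcases lt_or_gt_of_ne h with h | h
      · have h1 : (M : ℤ) * g.im + d.im ≤ -(K + 1) := by nlinarith
        nlinarith [sq_nonneg ((M : ℤ) * g.re + d.re)]
      · have h1 : (K : ℤ) + 1 ≤ (M : ℤ) * g.im + d.im := by nlinarith
        nlinarith [sq_nonneg ((M : ℤ) * g.re + d.re)]
  have hpK' : (p : ℤ) ≤ K := by exact_mod_cast hpK
  have hp0 : (0 : ℤ) ≤ p := by positivity
  nlinarith

/-- A lattice point of the strip whose position along the line is at distance between `σ` and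
`σ + s` from that of a nonzero multiple `M g` lying near the line is not prime. -/
theorem strip_block_pr (a b c B σ s : ℝ) (hab : 0 < a ^ 2 + b ^ 2)
    (hσ : a ^ 2 + b ^ 2 < σ ^ 2) (hσ0 : 0 ≤ σ) (K : ℕ)
    (hK : ((B + |c| + 1) ^ 2 + (σ + s) ^ 2) / (a ^ 2 + b ^ 2) ≤ K)
    (u v : ℤ) (p : GaussianInt) (hg : u ≠ 0 ∨ v ≠ 0)
    (hl : |a * (((pmod K : ℕ) : ℝ) * u)
      + b * (((pmod K : ℕ) : ℝ) * v) - c| ≤ |c| + 1)
    (hp : |a * p.re + b * p.im - c| ≤ B)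
    (h1 : σ ≤ |(-b * p.re + a * p.im) - (-b * (((pmod K : ℕ) : ℝ) * u)
      + a * (((pmod K : ℕ) : ℝ) * v))|)
    (h2 : |(-b * p.re + a * p.im) - (-b * (((pmod K : ℕ) : ℝ) * u)
      + a * (((pmod K : ℕ) : ℝ) * v))| ≤ σ + s) : ¬ Prime p := by
  generalize hM : pmod K = M at hl h1 h2
  have hB : 0 ≤ B := le_trans (abs_nonneg _) hp
  obtain ⟨d, hd⟩ : ∃ d : GaussianInt, d = p - (M : GaussianInt) * (⟨u, v⟩ : GaussianInt) :=
    ⟨_, rfl⟩
  have hre : (d.re : ℝ) = p.re - (M : ℝ) * u := by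
    rw [hd]; simp
  have him : (d.im : ℝ) = p.im - (M : ℝ) * v := by
    rw [hd]; simp
  have hl2 : |a * d.re + b * d.im| ≤ B + |c| + 1 := by
    have e : a * d.re + b * d.im
        = (a * p.re + b * p.im - c) - (a * ((M : ℝ) * u) + b * ((M : ℝ) * v) - c) := by
      rw [hre, him]; ring
    rw [e]
    calc |(a * p.re + b * p.im - c) - (a * ((M : ℝ) * u) + b * ((M : ℝ) * v) - c)|
        ≤ |a * p.re + b * p.im - c| + |a * ((M : ℝ) * u) + b * ((M : ℝ) * v) - c| :=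
          abs_sub _ _
      _ ≤ B + (|c| + 1) := add_le_add hp hl
      _ = B + |c| + 1 := by ring
  have hm2 : -b * d.re + a * d.im
      = (-b * p.re + a * p.im) - (-b * ((M : ℝ) * u) + a * ((M : ℝ) * v)) := by
    rw [hre, him]; ring
  rw [← hm2] at h1 h2
  have hid : (a * d.re + b * d.im) ^ 2 + (-b * d.re + a * d.im) ^ 2
      = (a ^ 2 + b ^ 2) * (d.norm : ℝ) := by
    rw [gnorm]; push_cast; ring
  have hsq1 : σ ^ 2 ≤ (-b * d.re + a * d.im) ^ 2 := by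
    rw [← sq_abs (-b * d.re + a * d.im)]
    exact pow_le_pow_left₀ hσ0 h1 2
  have hsq2 : (-b * d.re + a * d.im) ^ 2 ≤ (σ + s) ^ 2 := by
    rw [← sq_abs (-b * d.re + a * d.im)]
    exact pow_le_pow_left₀ (abs_nonneg _) h2 2
  have hsq3 : (a * d.re + b * d.im) ^ 2 ≤ (B + |c| + 1) ^ 2 := by
    rw [← sq_abs (a * d.re + b * d.im)]
    exact pow_le_pow_left₀ (abs_nonneg _) hl2 2
  have hn2 : 2 ≤ d.norm := by
    have h : (1 : ℝ) < (d.norm : ℝ) := by
      by_contra hcon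
      rw [not_lt] at hcon
      nlinarith [sq_nonneg (a * d.re + b * d.im)]
    have h' : (1 : ℤ) < d.norm := by exact_mod_cast h
    omega
  have hnK : d.norm ≤ K := by
    have h : (d.norm : ℝ) ≤ (K : ℝ) := by
      refine le_trans ?_ hK
      rw [le_div_iff₀ hab]
      nlinarith
    exact_mod_cast h
  have hg' : (⟨u, v⟩ : GaussianInt) ≠ 0 := by
    intro h
    have h1 := congrArg Zsqrtd.re h
    have h2 := congrArg Zsqrtd.im h
    simp at h1 h2
    rcases hg with h | h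
    · exact h h1
    · exact h h2
  have hbl := block_pr K ⟨u, v⟩ d hg' hn2 hnK
  rw [hM] at hbl
  have e : (M : GaussianInt) * (⟨u, v⟩ : GaussianInt) + d = p := by rw [hd]; ring
  rw [e] at hbl
  exact hbl

/-- A point of the region whose position along the line is at most `P` in absolute value has
bounded norm. -/
theorem logh_point (a b c B : ℝ) (hρ : 0 < a ^ 2 + b ^ 2) (p : GaussianInt) (hp : p ≠ 0)
    (hh : (a * p.re + b * p.im - c) ^ 2 ≤ (a ^ 2 + b ^ 2) *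
      (B + Real.log (p.norm) / 32))
    (P : ℝ) (hP : |-b * p.re + a * p.im| ≤ P) :
    ((p.norm : ℤ) : ℝ) ≤ 4 * |B| + 8 + (4 * c ^ 2 + 2 * P ^ 2) / (a ^ 2 + b ^ 2) := by
  have hN1 : (1 : ℝ) ≤ ((p.norm : ℤ) : ℝ) := by exact_mod_cast one_le_gnorm p hp
  generalize hN : ((p.norm : ℤ) : ℝ) = N at hh hN1 ⊢
  have hl0 : 0 ≤ Real.log N := Real.log_nonneg hN1
  have hfrac : Real.log N / 32 ≤ Real.log N := div_le_self hl0 (by norm_num)
  have hlog : Real.log N ≤ N / 4 + 2 := by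
    have h1 : Real.log (N / 4) ≤ N / 4 - 1 := Real.log_le_sub_one_of_pos (by linarith)
    have h2 : Real.log (4 : ℝ) ≤ 4 - 1 := Real.log_le_sub_one_of_pos (by norm_num)
    have h3 : Real.log N = Real.log (N / 4) + Real.log 4 := by
      rw [← Real.log_mul (by linarith) (by norm_num)]
      congr 1
      ring
    linarith
  have hperp : (a * p.re + b * p.im - c) ^ 2 ≤ (a ^ 2 + b ^ 2) * (|B| + (N / 4 + 2)) := by
    refine le_trans hh (mul_le_mul_of_nonneg_left ?_ hρ.le)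
    have := le_abs_self B
    linarith
  have hid : (a * p.re + b * p.im) ^ 2 + (-b * p.re + a * p.im) ^ 2 = (a ^ 2 + b ^ 2) * N := by
    rw [← hN, gnorm]; push_cast; ring
  have hpos2 : (-b * p.re + a * p.im) ^ 2 ≤ P ^ 2 := by
    rw [← sq_abs (-b * (p.re : ℝ) + a * p.im)]
    exact pow_le_pow_left₀ (abs_nonneg _) hP 2
  have hsum : (a * p.re + b * p.im) ^ 2 ≤ 2 * (a * p.re + b * p.im - c) ^ 2 + 2 * c ^ 2 := by
    nlinarith [sq_nonneg (a * p.re + b * p.im - 2 * c)]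
  have hkey : (a ^ 2 + b ^ 2) * N ≤ (a ^ 2 + b ^ 2) * (4 * |B| + 8) + (4 * c ^ 2 + 2 * P ^ 2) := by
    nlinarith
  have e : 4 * |B| + 8 + (4 * c ^ 2 + 2 * P ^ 2) / (a ^ 2 + b ^ 2)
      = ((a ^ 2 + b ^ 2) * (4 * |B| + 8) + (4 * c ^ 2 + 2 * P ^ 2)) / (a ^ 2 + b ^ 2) := by
    field_simp
  rw [e, le_div_iff₀ hρ]
  linarith

/-- A nonzero point of the region whose position along the line is at most `μ + w` in absolute
value, `μ` the position of a blocking centre for `M = pmod K`, is close enough to the line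
for the blocking disk of radius `sqrt K` to reach it. -/
theorem logh_loc (a b c B w Λ μ : ℝ) (hρ : 0 < a ^ 2 + b ^ 2) (hΛ1 : 1 ≤ Λ)
    (K : ℕ)
    (hμup : μ ^ 2 ≤ (a ^ 2 + b ^ 2) * Λ * (((pmod K : ℕ) : ℝ)) ^ 4)
    (hKC4 : 2 * (a ^ 2 + b ^ 2) * (|B| + Real.log (4 * |B| + 8
        + (4 * c ^ 2 + 4 * w ^ 2) / (a ^ 2 + b ^ 2) + 4 * Λ) / 32)
        + 2 * (|c| + 1) ^ 2 + w ^ 2 ≤ (a ^ 2 + b ^ 2) * K / 4)
    (p : GaussianInt) (hp : p ≠ 0)
    (hh : (a * p.re + b * p.im - c) ^ 2 ≤ (a ^ 2 + b ^ 2) *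
      (B + Real.log (p.norm) / 32))
    (hpos : |-b * p.re + a * p.im| ≤ μ + w) :
    ((|a * p.re + b * p.im - c| + |c| + 1) ^ 2 + w ^ 2) / (a ^ 2 + b ^ 2) ≤ K := by
  have hB0 : 0 ≤ |B| := abs_nonneg B
  have hMge : 2 * K + 1 ≤ pmod K := pmod_ge K
  have hlogM := log_pmod_le K
  obtain ⟨M, hMdef⟩ : ∃ M : ℝ, M = ((pmod K : ℕ) : ℝ) := ⟨_, rfl⟩
  rw [← hMdef] at hμup hlogM
  have hMK : 2 * (K : ℝ) + 1 ≤ M := by
    rw [hMdef]; exact_mod_cast hMge
  have hK0 : (0 : ℝ) ≤ K := by positivity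
  have hM1 : 1 ≤ M := by linarith
  obtain ⟨C1, hC1def⟩ : ∃ C1 : ℝ,
      C1 = 4 * |B| + 8 + (4 * c ^ 2 + 4 * w ^ 2) / (a ^ 2 + b ^ 2) + 4 * Λ := ⟨_, rfl⟩
  rw [← hC1def] at hKC4
  have hfr0 : 0 ≤ (4 * c ^ 2 + 4 * w ^ 2) / (a ^ 2 + b ^ 2) := by positivity
  have hC1 : 1 ≤ C1 := by
    rw [hC1def]
    linarith
  obtain ⟨lC, hlCdef⟩ : ∃ lC : ℝ, lC = Real.log C1 := ⟨_, rfl⟩
  rw [← hlCdef] at hKC4
  have hlC0 : 0 ≤ lC := by rw [hlCdef]; exact Real.log_nonneg hC1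
  have hN1 : (1 : ℝ) ≤ ((p.norm : ℤ) : ℝ) := by exact_mod_cast one_le_gnorm _ hp
  have hNb := logh_point a b c B hρ p hp hh (μ + w) hpos
  generalize hN : ((p.norm : ℤ) : ℝ) = N at hh hN1 hNb
  have hNC : N ≤ C1 * M ^ 4 := by
    have h1 : (μ + w) ^ 2 ≤ 2 * μ ^ 2 + 2 * w ^ 2 := by
      have := sq_nonneg (μ - w)
      linarith
    have h2 : (4 * c ^ 2 + 2 * (μ + w) ^ 2) / (a ^ 2 + b ^ 2)
        ≤ (4 * c ^ 2 + 4 * w ^ 2) / (a ^ 2 + b ^ 2) + 4 * Λ * M ^ 4 := by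
      rw [div_le_iff₀ hρ]
      have e : ((4 * c ^ 2 + 4 * w ^ 2) / (a ^ 2 + b ^ 2) + 4 * Λ * M ^ 4)
          * (a ^ 2 + b ^ 2)
          = (4 * c ^ 2 + 4 * w ^ 2) + 4 * ((a ^ 2 + b ^ 2) * Λ * M ^ 4) := by
        field_simp
      rw [e]; linarith
    have hM4 : 1 ≤ M ^ 4 := one_le_pow₀ hM1
    have h3 : 4 * |B| + 8 + (4 * c ^ 2 + 4 * w ^ 2) / (a ^ 2 + b ^ 2)
        ≤ (4 * |B| + 8 + (4 * c ^ 2 + 4 * w ^ 2) / (a ^ 2 + b ^ 2)) * M ^ 4 :=
      le_mul_of_one_le_right (by linarith) hM4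
    have e2 : C1 * M ^ 4 = (4 * |B| + 8 + (4 * c ^ 2 + 4 * w ^ 2) / (a ^ 2 + b ^ 2)) * M ^ 4
        + 4 * Λ * M ^ 4 := by
      rw [hC1def]; ring
    rw [e2]; linarith
  have hlogN : Real.log N ≤ lC + 12 * (K : ℝ) := by
    have h1 : Real.log N ≤ Real.log (C1 * M ^ 4) := Real.log_le_log (by linarith) hNC
    have h2 : Real.log (C1 * M ^ 4) = Real.log C1 + 4 * Real.log M := by
      rw [Real.log_mul (by linarith) (by positivity), Real.log_pow]; push_cast; ring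
    rw [hlCdef]; linarith
  have hperp : (a * p.re + b * p.im - c) ^ 2
      ≤ (a ^ 2 + b ^ 2) * (|B| + (lC + 12 * (K : ℝ)) / 32) := by
    refine le_trans hh (mul_le_mul_of_nonneg_left ?_ hρ.le)
    have := le_abs_self B
    linarith
  rw [div_le_iff₀ hρ]
  have h5 : (|a * p.re + b * p.im - c| + |c| + 1) ^ 2
      ≤ 2 * (a * p.re + b * p.im - c) ^ 2 + 2 * (|c| + 1) ^ 2 := by
    have h6 := sq_abs (a * p.re + b * p.im - c)
    have h7 := sq_nonneg (|a * p.re + b * p.im - c| - (|c| + 1))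
    linarith
  linarith

/-- A sequence of Gaussian primes with bounded steps that stays in the region
`dist(z, line)^2 ≤ B + log N(z) / 32` around a real line takes only
finitely many values. -/
theorem logh_walk_finite (z : ℕ → GaussianInt) (D : ℕ) (a b c B : ℝ) (hab : a ≠ 0 ∨ b ≠ 0)
    (hprime : ∀ n, Prime (z n))
    (hstep : ∀ n, Zsqrtd.norm (z (n + 1) - z n) ≤ D)
    (hhorn : ∀ n, (a * (z n).re + b * (z n).im - c) ^ 2 ≤ (a ^ 2 + b ^ 2) *
      (B + Real.log ((z n).norm) / 32)) :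
    (Set.range z).Finite := by
  have hρ : 0 < a ^ 2 + b ^ 2 := by
    rcases hab with h | h
    · have := sq_pos_of_ne_zero h; nlinarith [sq_nonneg b]
    · have := sq_pos_of_ne_zero h; nlinarith [sq_nonneg a]
  have ha0 : 0 ≤ |a| := abs_nonneg a
  have hb0 : 0 ≤ |b| := abs_nonneg b
  have hD0 : (0 : ℝ) ≤ D := by positivity
  obtain ⟨σ, hσdef⟩ : ∃ σ : ℝ, σ = |a| + |b| + 1 := ⟨_, rfl⟩
  obtain ⟨s, hsdef⟩ : ∃ s : ℝ, s = (|a| + |b|) * D := ⟨_, rfl⟩
  have hσ0 : 0 ≤ σ := by rw [hσdef]; positivity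
  have hs0 : 0 ≤ s := by rw [hsdef]; positivity
  have hσ2 : a ^ 2 + b ^ 2 < σ ^ 2 := by
    rw [hσdef]
    nlinarith [sq_abs a, sq_abs b, mul_nonneg ha0 hb0]
  clear ha0 hb0 hD0
  obtain ⟨Λ, hΛ1, hΛ⟩ := short_vec_bd a b
  obtain ⟨C4, hC4def⟩ : ∃ C4 : ℝ, C4 = 2 * (a ^ 2 + b ^ 2) * (|B| + Real.log (4 * |B| + 8
      + (4 * c ^ 2 + 4 * (σ + s) ^ 2) / (a ^ 2 + b ^ 2) + 4 * Λ) / 32)
      + 2 * (|c| + 1) ^ 2 + (σ + s) ^ 2 := ⟨_, rfl⟩
  have hC40 : 0 ≤ C4 := by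
    have hB0 : 0 ≤ |B| := abs_nonneg B
    have hfr0 : 0 ≤ (4 * c ^ 2 + 4 * (σ + s) ^ 2) / (a ^ 2 + b ^ 2) := by positivity
    have hl0 : 0 ≤ Real.log (4 * |B| + 8
        + (4 * c ^ 2 + 4 * (σ + s) ^ 2) / (a ^ 2 + b ^ 2) + 4 * Λ) :=
      Real.log_nonneg (by linarith)
    have h1 : 0 ≤ 2 * (a ^ 2 + b ^ 2) * (|B| + Real.log (4 * |B| + 8
        + (4 * c ^ 2 + 4 * (σ + s) ^ 2) / (a ^ 2 + b ^ 2) + 4 * Λ) / 32) :=
      mul_nonneg (by linarith) (by linarith)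
    have h2 := sq_nonneg (|c| + 1)
    have h3 := sq_nonneg (σ + s)
    rw [hC4def]; linarith
  obtain ⟨q0, hq0def⟩ : ∃ q0 : ℝ, q0 = -b * (z 0).re + a * (z 0).im := ⟨_, rfl⟩
  have hq00 : 0 ≤ |q0| := abs_nonneg q0
  obtain ⟨K, hK⟩ := exists_nat_ge
    (4 * C4 / (a ^ 2 + b ^ 2) + ((|q0| + 1) ^ 2 + 2) / (a ^ 2 + b ^ 2) + 1)
  have hf1 : 0 ≤ 4 * C4 / (a ^ 2 + b ^ 2) := by positivity
  have hf2 : 0 ≤ ((|q0| + 1) ^ 2 + 2) / (a ^ 2 + b ^ 2) := by positivity
  have hK1 : (1 : ℝ) ≤ K := by linarith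
  have hKC4 : C4 ≤ (a ^ 2 + b ^ 2) * K / 4 := by
    have h : 4 * C4 / (a ^ 2 + b ^ 2) ≤ K := by linarith
    rw [div_le_iff₀ hρ] at h
    linarith
  have hKq : (|q0| + 1) ^ 2 + 2 ≤ (a ^ 2 + b ^ 2) * K := by
    have h : ((|q0| + 1) ^ 2 + 2) / (a ^ 2 + b ^ 2) ≤ K := by linarith
    rw [div_le_iff₀ hρ] at h
    linarith
  clear hK hf1 hf2
  rw [hC4def] at hKC4
  clear hC40 hC4def C4
  have hMpos : 0 < pmod K := pmod_pos K
  have hMge : 2 * K + 1 ≤ pmod K := pmod_ge K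
  obtain ⟨u0, v0, hg0, hδ0, huv0⟩ := hΛ _ hMpos
  obtain ⟨M, hMdef⟩ : ∃ M : ℝ, M = ((pmod K : ℕ) : ℝ) := ⟨_, rfl⟩
  have hMK : 2 * (K : ℝ) + 1 ≤ M := by
    rw [hMdef]; exact_mod_cast hMge
  rw [← hMdef] at hδ0 huv0
  obtain ⟨u, v, μ, hg, hμ0, epos, epos', hl, hl', hμlow0, hμup⟩ :=
    horn_centres a b c Λ M u0 v0 hg0 hδ0 huv0
  clear hg0 hδ0 huv0 hΛ
  have hg' : (-u ≠ 0 ∨ -v ≠ 0) := by
    rcases hg with h | h
    · exact Or.inl (neg_ne_zero.mpr h)
    · exact Or.inr (neg_ne_zero.mpr h)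
  have hμgt : |q0| + 1 < μ := by
    have h2 : (K : ℝ) ≤ M ^ 2 := by nlinarith
    have h3 : (a ^ 2 + b ^ 2) * K ≤ M ^ 2 * (a ^ 2 + b ^ 2) := by nlinarith
    by_contra hcon
    rw [not_lt] at hcon
    have : μ ^ 2 ≤ (|q0| + 1) ^ 2 := pow_le_pow_left₀ hμ0 hcon 2
    linarith
  clear hμlow0 hKq hMK hMge hMpos
  -- a prime of the region between the two centres is close to the line
  have hloc : ∀ n, |-b * (z n).re + a * (z n).im| ≤ μ + (σ + s) →
      ((|a * (z n).re + b * (z n).im - c| + |c| + 1) ^ 2 + (σ + s) ^ 2) / (a ^ 2 + b ^ 2)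
        ≤ K :=
    fun n hpos => logh_loc a b c B (σ + s) Λ μ hρ hΛ1 K
      (by rw [← hMdef]; exact hμup) hKC4 (z n) (hprime n).ne_zero (hhorn n) hpos
  clear hKC4 hμup
  -- the walk never passes the two centres
  have hinv : ∀ n, -μ - σ < (-b * (z n).re + a * (z n).im)
      ∧ (-b * (z n).re + a * (z n).im) < μ + σ := by
    intro n
    induction n with
    | zero =>
      rw [← hq0def]
      have := abs_lt.mp (show |q0| < μ by linarith)
      constructor <;> linarith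
    | succ n ih =>
      have hsn := abs_le.mp (step_along (z n) (z (n + 1)) D a b (hstep n))
      rw [← hsdef] at hsn
      constructor
      · by_contra hcon
        rw [not_lt] at hcon
        have hposb : |-b * (z (n + 1)).re + a * (z (n + 1)).im| ≤ μ + (σ + s) := by
          rw [abs_le]; constructor <;> linarith [ih.1, ih.2]
        refine strip_block_pr a b c (|a * (z (n + 1)).re + b * (z (n + 1)).im - c|) σ s hρ hσ2 hσ0
          K (hloc (n + 1) hposb) (-u) (-v) (z (n + 1)) hg' ?_ (le_refl _) ?_ ?_ (hprime (n + 1))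
        · rw [← hMdef]; exact hl'
        · rw [← hMdef, epos', abs_of_nonpos (by linarith)]; linarith
        · rw [← hMdef, epos', abs_of_nonpos (by linarith)]; linarith [ih.1]
      · by_contra hcon
        rw [not_lt] at hcon
        have hposb : |-b * (z (n + 1)).re + a * (z (n + 1)).im| ≤ μ + (σ + s) := by
          rw [abs_le]; constructor <;> linarith [ih.1, ih.2]
        refine strip_block_pr a b c (|a * (z (n + 1)).re + b * (z (n + 1)).im - c|) σ s hρ hσ2 hσ0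
          K (hloc (n + 1) hposb) u v (z (n + 1)) hg ?_ (le_refl _) ?_ ?_ (hprime (n + 1))
        · rw [← hMdef]; exact hl
        · rw [← hMdef, epos, abs_of_nonneg (by linarith)]; linarith
        · rw [← hMdef, epos, abs_of_nonneg (by linarith)]; linarith [ih.2]
  -- hence the walk is bounded
  obtain ⟨Nb, hNb⟩ := exists_nat_ge
    (4 * |B| + 8 + (4 * c ^ 2 + 2 * (μ + σ) ^ 2) / (a ^ 2 + b ^ 2))
  have hsub : Set.range z ⊆ {p : GaussianInt | p.norm ≤ (Nb : ℤ)} := by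
    rintro _ ⟨n, rfl⟩
    show (z n).norm ≤ (Nb : ℤ)
    obtain ⟨i1, i2⟩ := hinv n
    have hpos : |-b * (z n).re + a * (z n).im| ≤ μ + σ := by
      rw [abs_le]; constructor <;> linarith
    have h := logh_point a b c B hρ (z n) (hprime n).ne_zero (hhorn n) (μ + σ) hpos
    have h5 : (((z n).norm : ℤ) : ℝ) ≤ (Nb : ℝ) := le_trans h hNb
    exact_mod_cast h5
  exact (finite_norm_le Nb).subset hsub

end Vale.Agent.H4
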