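import Vale.Agent.H4.Horn

/-!
# An explicit bound for walks on Gaussian primes in a strip

A bounded-step walk on the Gaussian primes that stays in a strip of half-width `B` around the
line `x cos θ + y sin θ = c` never gets farther from the origin than a fixed explicit multiple
of the modulus of its starting point.

* `short_vec_exp`, `short_vec_unit`: Dirichlet approximation with explicit constants.
* `quant_centres`: a blocking centre just beyond a given position along the line.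
* `quant_walk`: the explicit bound.
-/

namespace Vale.Agent.H4

theorem short_vec_exp (a b : ℝ) (hb : b ≠ 0) (M : ℕ) (hM : 0 < M) :
    ∃ u v : ℤ, (u ≠ 0 ∨ v ≠ 0) ∧ |(M : ℝ) * (a * u + b * v)| ≤ 1 ∧
      (u : ℝ) ^ 2 + (v : ℝ) ^ 2
        ≤ ((|b| + 2) ^ 2 + ((|b| + 2) * (|a| / |b|) + 1) ^ 2) * (M : ℝ) ^ 2 := by
  have hbpos : 0 < |b| := abs_pos.mpr hb
  have ha0 : 0 ≤ |a| := abs_nonneg a
  have hq0 : 0 ≤ |a| / |b| := div_nonneg ha0 hbpos.le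
  have hM1 : (1 : ℝ) ≤ M := by exact_mod_cast hM
  have hM0 : (0 : ℝ) ≤ M := by positivity
  obtain ⟨j, k, hk0, hkn, h⟩ :=
    Real.exists_int_int_abs_mul_sub_le (a / b) (n := ⌈(M : ℝ) * |b|⌉₊ + 1) (by omega)
  have hn : (M : ℝ) * |b| ≤ ((⌈(M : ℝ) * |b|⌉₊ + 1 : ℕ) : ℝ) := by
    push_cast
    have := Nat.le_ceil ((M : ℝ) * |b|)
    linarith
  have hn2 : ((⌈(M : ℝ) * |b|⌉₊ + 1 : ℕ) : ℝ) ≤ (M : ℝ) * |b| + 2 := by
    push_cast
    have := Nat.ceil_lt_add_one (mul_nonneg hM0 hbpos.le)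
    linarith
  have hn0 : (0 : ℝ) < ((⌈(M : ℝ) * |b|⌉₊ + 1 : ℕ) : ℝ) + 1 := by positivity
  have hfrac : |(k : ℝ) * (a / b) - j| ≤ 1 := by
    refine le_trans h ?_
    rw [div_le_one hn0]
    have : (0 : ℝ) ≤ ((⌈(M : ℝ) * |b|⌉₊ + 1 : ℕ) : ℝ) := by positivity
    linarith
  have hkR0 : (0 : ℝ) < k := by exact_mod_cast hk0
  have hkR : (k : ℝ) ≤ (M : ℝ) * |b| + 2 := by
    have : (k : ℝ) ≤ ((⌈(M : ℝ) * |b|⌉₊ + 1 : ℕ) : ℝ) := by exact_mod_cast hkn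
    linarith
  have hkM : (k : ℝ) ≤ (M : ℝ) * (|b| + 2) := by nlinarith
  refine ⟨k, -j, Or.inl hk0.ne', ?_, ?_⟩
  · have e : (M : ℝ) * (a * k + b * ((-j : ℤ) : ℝ))
        = ((M : ℝ) * b) * ((k : ℝ) * (a / b) - j) := by
      push_cast
      field_simp
      ring
    rw [e, abs_mul, abs_mul, abs_of_nonneg hM0]
    calc (M : ℝ) * |b| * |(k : ℝ) * (a / b) - j|
        ≤ (M : ℝ) * |b| * (1 / (((⌈(M : ℝ) * |b|⌉₊ + 1 : ℕ) : ℝ) + 1)) := by
          apply mul_le_mul_of_nonneg_left h (by positivity)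
      _ ≤ 1 := by
          rw [mul_one_div, div_le_one hn0]
          linarith
  · have hj : |(j : ℝ)| ≤ (M : ℝ) * ((|b| + 2) * (|a| / |b|) + 1) := by
      have e : (j : ℝ) = (k : ℝ) * (a / b) - ((k : ℝ) * (a / b) - j) := by ring
      have h1 : |(k : ℝ) * (a / b)| = (k : ℝ) * (|a| / |b|) := by
        rw [abs_mul, abs_div, abs_of_pos hkR0]
      have h2 : |(j : ℝ)| ≤ (k : ℝ) * (|a| / |b|) + 1 := by
        rw [e]
        calc |(k : ℝ) * (a / b) - ((k : ℝ) * (a / b) - j)|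
            ≤ |(k : ℝ) * (a / b)| + |(k : ℝ) * (a / b) - j| := abs_sub _ _
          _ ≤ (k : ℝ) * (|a| / |b|) + 1 := by rw [h1]; linarith
      have h3 : (k : ℝ) * (|a| / |b|) ≤ (M : ℝ) * (|b| + 2) * (|a| / |b|) :=
        mul_le_mul_of_nonneg_right hkM hq0
      nlinarith
    have hk2 : (k : ℝ) ^ 2 ≤ ((M : ℝ) * (|b| + 2)) ^ 2 :=
      pow_le_pow_left₀ hkR0.le hkM 2
    have hj2 : (j : ℝ) ^ 2 ≤ ((M : ℝ) * ((|b| + 2) * (|a| / |b|) + 1)) ^ 2 := by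
      rw [← sq_abs (j : ℝ)]
      exact pow_le_pow_left₀ (abs_nonneg _) hj 2
    push_cast
    nlinarith

/-- The constant `(|b| + 2)^2 + ((|b| + 2) |a| / |b| + 1)^2` is at most `25` when
`|a| ≤ |b| ≤ 1`. -/
theorem short_vec_const (a b : ℝ) (hb : b ≠ 0) (hle : |a| ≤ |b|) (hb1 : |b| ≤ 1) :
    (|b| + 2) ^ 2 + ((|b| + 2) * (|a| / |b|) + 1) ^ 2 ≤ 25 := by
  have hbpos : 0 < |b| := abs_pos.mpr hb
  have hq1 : |a| / |b| ≤ 1 := by rw [div_le_one hbpos]; exact hle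
  have hq0 : 0 ≤ |a| / |b| := div_nonneg (abs_nonneg a) hbpos.le
  have h3 : (|b| + 2) * (|a| / |b|) ≤ 3 := by nlinarith
  have h30 : 0 ≤ (|b| + 2) * (|a| / |b|) := by positivity
  have h4 : ((|b| + 2) * (|a| / |b|) + 1) ^ 2 ≤ 16 := by nlinarith
  have h5 : (|b| + 2) ^ 2 ≤ 9 := by nlinarith
  linarith

theorem short_vec_unit (a b : ℝ) (h1 : a ^ 2 + b ^ 2 = 1) (M : ℕ) (hM : 0 < M) :
    ∃ u v : ℤ, (u ≠ 0 ∨ v ≠ 0) ∧ |(M : ℝ) * (a * u + b * v)| ≤ 1 ∧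
      (u : ℝ) ^ 2 + (v : ℝ) ^ 2 ≤ 25 * (M : ℝ) ^ 2 := by
  have hM2 : (0 : ℝ) ≤ (M : ℝ) ^ 2 := sq_nonneg _
  have ha1 : |a| ≤ 1 := by
    apply abs_le_of_sq_le_sq _ zero_le_one
    nlinarith [sq_nonneg b]
  have hb1 : |b| ≤ 1 := by
    apply abs_le_of_sq_le_sq _ zero_le_one
    nlinarith [sq_nonneg a]
  rcases le_total |a| |b| with hle | hle
  · have hb : b ≠ 0 := by
      intro hb0
      rw [hb0, abs_zero] at hle
      have ha : a = 0 := abs_eq_zero.mp (le_antisymm hle (abs_nonneg a))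
      rw [ha, hb0] at h1
      norm_num at h1
    obtain ⟨u, v, hg, hδ, huv⟩ := short_vec_exp a b hb M hM
    exact ⟨u, v, hg, hδ, le_trans huv
      (mul_le_mul_of_nonneg_right (short_vec_const a b hb hle hb1) hM2)⟩
  · have ha : a ≠ 0 := by
      intro ha0
      rw [ha0, abs_zero] at hle
      have hb : b = 0 := abs_eq_zero.mp (le_antisymm hle (abs_nonneg b))
      rw [ha0, hb] at h1
      norm_num at h1
    obtain ⟨u, v, hg, hδ, huv⟩ := short_vec_exp b a ha M hM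
    refine ⟨v, u, hg.symm, ?_, ?_⟩
    · have e : (M : ℝ) * (a * v + b * u) = (M : ℝ) * (b * u + a * v) := by ring
      rw [e]
      exact hδ
    · have h := le_trans huv
        (mul_le_mul_of_nonneg_right (short_vec_const b a ha hle ha1) hM2)
      linarith

/-- A blocking centre `M (u, v)` near the line `a x + b y = c` (`a^2 + b^2 = 1`) whose position
`μ` along the line lies in `(T, T + 5 M^2 (T + 2)]`, together with the mirrored centre. -/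
theorem quant_centres (a b c : ℝ) (h1 : a ^ 2 + b ^ 2 = 1) (M : ℕ) (hM : 3 ≤ M) (T : ℝ)
    (hT : 0 ≤ T) :
    ∃ (u v : ℤ) (μ : ℝ), (u ≠ 0 ∨ v ≠ 0) ∧ T < μ ∧ μ ≤ T + 5 * (M : ℝ) ^ 2 * (T + 2) ∧
      -b * ((M : ℝ) * u) + a * ((M : ℝ) * v) = μ ∧
      -b * ((M : ℝ) * ((-u : ℤ) : ℝ)) + a * ((M : ℝ) * ((-v : ℤ) : ℝ)) = -μ ∧
      |a * ((M : ℝ) * u) + b * ((M : ℝ) * v) - c| ≤ |c| + 1 ∧
      |a * ((M : ℝ) * ((-u : ℤ) : ℝ)) + b * ((M : ℝ) * ((-v : ℤ) : ℝ)) - c| ≤ |c| + 1 := by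
  have hM3 : (3 : ℝ) ≤ M := by exact_mod_cast hM
  have hMpos : 0 < M := by omega
  -- the auxiliary multiplier
  obtain ⟨k₀, hk₀⟩ : ∃ k₀ : ℕ, k₀ = ⌈T⌉₊ + 1 := ⟨_, rfl⟩
  have hk1 : T + 1 ≤ (k₀ : ℝ) := by
    rw [hk₀]; push_cast
    have := Nat.le_ceil T
    linarith
  have hk2 : (k₀ : ℝ) ≤ T + 2 := by
    rw [hk₀]; push_cast
    have := Nat.ceil_lt_add_one hT
    linarith
  have hk0pos : 0 < k₀ := by omega
  have hkR1 : (1 : ℝ) ≤ k₀ := by linarith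
  obtain ⟨u0, v0, hg0, hδ0, huv0⟩ := short_vec_unit a b h1 (M * k₀) (Nat.mul_pos hMpos hk0pos)
  push_cast at hδ0 huv0
  -- choose the sign
  obtain ⟨u1, v1, hg1, hδ1, huv1, hμ0⟩ : ∃ u1 v1 : ℤ, (u1 ≠ 0 ∨ v1 ≠ 0) ∧
      |(M : ℝ) * (k₀ : ℝ) * (a * u1 + b * v1)| ≤ 1 ∧
      (u1 : ℝ) ^ 2 + (v1 : ℝ) ^ 2 ≤ 25 * ((M : ℝ) * (k₀ : ℝ)) ^ 2 ∧
      0 ≤ (M : ℝ) * (-b * u1 + a * v1) := by
    rcases le_total 0 ((M : ℝ) * (-b * u0 + a * v0)) with h | h
    · exact ⟨u0, v0, hg0, hδ0, huv0, h⟩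
    · refine ⟨-u0, -v0, ?_, ?_, ?_, ?_⟩
      · rcases hg0 with h' | h'
        · exact Or.inl (neg_ne_zero.mpr h')
        · exact Or.inr (neg_ne_zero.mpr h')
      · have e : (M : ℝ) * (k₀ : ℝ) * (a * ((-u0 : ℤ) : ℝ) + b * ((-v0 : ℤ) : ℝ))
            = -((M : ℝ) * (k₀ : ℝ) * (a * u0 + b * v0)) := by push_cast; ring
        rw [e, abs_neg]; exact hδ0
      · push_cast
        have e : (-(u0 : ℝ)) ^ 2 + (-(v0 : ℝ)) ^ 2 = (u0 : ℝ) ^ 2 + (v0 : ℝ) ^ 2 := by ring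
        rw [e]; exact huv0
      · have e : (M : ℝ) * (-b * ((-u0 : ℤ) : ℝ) + a * ((-v0 : ℤ) : ℝ))
            = -((M : ℝ) * (-b * u0 + a * v0)) := by push_cast; ring
        rw [e]; linarith
  clear hg0 hδ0 huv0
  obtain ⟨δ, hδdef⟩ : ∃ δ : ℝ, δ = (M : ℝ) * (a * u1 + b * v1) := ⟨_, rfl⟩
  obtain ⟨μ₁, hμdef⟩ : ∃ μ₁ : ℝ, μ₁ = (M : ℝ) * (-b * u1 + a * v1) := ⟨_, rfl⟩
  rw [← hμdef] at hμ0
  have hkδ : (k₀ : ℝ) * |δ| ≤ 1 := by
    have e : (M : ℝ) * (k₀ : ℝ) * (a * u1 + b * v1) = (k₀ : ℝ) * δ := by rw [hδdef]; ring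
    rw [e, abs_mul, abs_of_nonneg (by linarith : (0 : ℝ) ≤ k₀)] at hδ1
    exact hδ1
  have hδabs : |δ| ≤ 1 := by
    have := abs_nonneg δ
    nlinarith
  have hsum : δ ^ 2 + μ₁ ^ 2 = (M : ℝ) ^ 2 * ((u1 : ℝ) ^ 2 + (v1 : ℝ) ^ 2) := by
    rw [hδdef, hμdef]
    have : ((M : ℝ) * (a * u1 + b * v1)) ^ 2 + ((M : ℝ) * (-b * u1 + a * v1)) ^ 2
        = (M : ℝ) ^ 2 * ((a ^ 2 + b ^ 2) * ((u1 : ℝ) ^ 2 + (v1 : ℝ) ^ 2)) := by ring
    rw [this, h1, one_mul]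
  have hint : (1 : ℝ) ≤ (u1 : ℝ) ^ 2 + (v1 : ℝ) ^ 2 := by
    have hz : (1 : ℤ) ≤ u1 ^ 2 + v1 ^ 2 := by
      rcases hg1 with h | h
      · have := sq_nonneg v1
        have h' : 0 < u1 ^ 2 := by positivity
        omega
      · have := sq_nonneg u1
        have h' : 0 < v1 ^ 2 := by positivity
        omega
    exact_mod_cast hz
  have hδsq : δ ^ 2 ≤ 1 := by
    rw [← sq_abs δ]
    have := abs_nonneg δ
    nlinarith
  have hμ1 : 1 ≤ μ₁ := by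
    by_contra hcon
    rw [not_le] at hcon
    have h2 : μ₁ ^ 2 < 1 := by nlinarith
    have h3 : (9 : ℝ) ≤ (M : ℝ) ^ 2 := by nlinarith
    nlinarith
  have hμup : μ₁ ≤ 5 * (M : ℝ) ^ 2 * (k₀ : ℝ) := by
    have hsq : μ₁ ^ 2 ≤ (5 * (M : ℝ) ^ 2 * (k₀ : ℝ)) ^ 2 := by
      have h2 : μ₁ ^ 2 ≤ (M : ℝ) ^ 2 * ((u1 : ℝ) ^ 2 + (v1 : ℝ) ^ 2) := by
        have := sq_nonneg δ
        linarith
      have h3 : (M : ℝ) ^ 2 * ((u1 : ℝ) ^ 2 + (v1 : ℝ) ^ 2)
          ≤ (M : ℝ) ^ 2 * (25 * ((M : ℝ) * (k₀ : ℝ)) ^ 2) :=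
        mul_le_mul_of_nonneg_left huv1 (sq_nonneg _)
      have e : (M : ℝ) ^ 2 * (25 * ((M : ℝ) * (k₀ : ℝ)) ^ 2)
          = (5 * (M : ℝ) ^ 2 * (k₀ : ℝ)) ^ 2 := by ring
      linarith
    have h5 : (0 : ℝ) ≤ 5 * (M : ℝ) ^ 2 * (k₀ : ℝ) := by positivity
    exact le_trans (le_abs_self μ₁) (abs_le_of_sq_le_sq hsq h5)
  have hμpos : 0 < μ₁ := by linarith
  -- the multiple
  obtain ⟨j, hjdef⟩ : ∃ j : ℕ, j = ⌊T / μ₁⌋₊ + 1 := ⟨_, rfl⟩
  have hq0 : 0 ≤ T / μ₁ := div_nonneg hT hμpos.le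
  have hj1 : T < (j : ℝ) * μ₁ := by
    have h := Nat.lt_floor_add_one (T / μ₁)
    rw [div_lt_iff₀ hμpos] at h
    rw [hjdef]; push_cast
    exact h
  have hj2 : (j : ℝ) * μ₁ ≤ T + μ₁ := by
    have h := Nat.floor_le hq0
    rw [le_div_iff₀ hμpos] at h
    rw [hjdef]; push_cast
    linarith
  have hjk : (j : ℝ) ≤ (k₀ : ℝ) := by
    have h := Nat.floor_le hq0
    have h2 : T / μ₁ ≤ T := div_le_self hT hμ1
    rw [hjdef]; push_cast
    linarith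
  have hjpos : 0 < j := by omega
  have hjR : (0 : ℝ) ≤ (j : ℝ) := by positivity
  have hjδ : |(j : ℝ) * δ| ≤ 1 := by
    rw [abs_mul, abs_of_nonneg hjR]
    have := abs_nonneg δ
    nlinarith
  refine ⟨(j : ℤ) * u1, (j : ℤ) * v1, (j : ℝ) * μ₁, ?_, hj1, ?_, ?_, ?_, ?_, ?_⟩
  · have hjz : (j : ℤ) ≠ 0 := by exact_mod_cast hjpos.ne'
    rcases hg1 with h | h
    · exact Or.inl (mul_ne_zero hjz h)
    · exact Or.inr (mul_ne_zero hjz h)
  · have h3 : 5 * (M : ℝ) ^ 2 * (k₀ : ℝ) ≤ 5 * (M : ℝ) ^ 2 * (T + 2) :=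
      mul_le_mul_of_nonneg_left hk2 (by positivity)
    linarith
  · rw [hμdef]; push_cast; ring
  · rw [hμdef]; push_cast; ring
  · have e : a * ((M : ℝ) * (((j : ℤ) * u1 : ℤ) : ℝ)) + b * ((M : ℝ) * (((j : ℤ) * v1 : ℤ) : ℝ)) - c
        = (j : ℝ) * δ - c := by rw [hδdef]; push_cast; ring
    rw [e]
    calc |(j : ℝ) * δ - c| ≤ |(j : ℝ) * δ| + |c| := abs_sub _ _
      _ ≤ |c| + 1 := by linarith
  · have e : a * ((M : ℝ) * ((-((j : ℤ) * u1) : ℤ) : ℝ))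
        + b * ((M : ℝ) * ((-((j : ℤ) * v1) : ℤ) : ℝ)) - c
        = -((j : ℝ) * δ) - c := by rw [hδdef]; push_cast; ring
    rw [e]
    calc |-((j : ℝ) * δ) - c| ≤ |-((j : ℝ) * δ)| + |c| := abs_sub _ _
      _ ≤ |c| + 1 := by rw [abs_neg]; linarith

/-- One step of norm at most `k^2` changes the position along a line with unit normal `(a, b)`
by at most `k`. -/
theorem step_along_unit (z w : GaussianInt) (k : ℕ) (a b : ℝ) (h1 : a ^ 2 + b ^ 2 = 1)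
    (h : Zsqrtd.norm (w - z) ≤ (k : ℤ) ^ 2) :
    |(-b * w.re + a * w.im) - (-b * z.re + a * z.im)| ≤ k := by
  rw [gnorm] at h
  simp only [Zsqrtd.re_sub, Zsqrtd.im_sub] at h
  have hR : ((w.re : ℝ) - z.re) ^ 2 + ((w.im : ℝ) - z.im) ^ 2 ≤ (k : ℝ) ^ 2 := by
    exact_mod_cast h
  have e : (-b * w.re + a * w.im) - (-b * z.re + a * z.im)
      = -b * ((w.re : ℝ) - z.re) + a * ((w.im : ℝ) - z.im) := by ring
  rw [e]
  apply abs_le_of_sq_le_sq _ (by positivity)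
  have hid : (-b * ((w.re : ℝ) - z.re) + a * ((w.im : ℝ) - z.im)) ^ 2
      + (a * ((w.re : ℝ) - z.re) + b * ((w.im : ℝ) - z.im)) ^ 2
      = (a ^ 2 + b ^ 2) * (((w.re : ℝ) - z.re) ^ 2 + ((w.im : ℝ) - z.im) ^ 2) := by ring
  rw [h1, one_mul] at hid
  have := sq_nonneg (a * ((w.re : ℝ) - z.re) + b * ((w.im : ℝ) - z.im))
  linarith

/-- The two polynomial estimates behind the explicit constant. -/
theorem quant_poly (X T N0 : ℝ) (hX : 9 ≤ X) (hT2 : T ^ 2 ≤ N0) (hN : 1 ≤ N0)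
    (K : ℝ) (hK : K ≤ X) :
    K + ((1 + 5 * X) * T + (10 * X + 2)) ^ 2 ≤ 256 * X ^ 2 * N0 := by
  have hα : 0 ≤ 1 + 5 * X := by linarith
  have hβ : 0 ≤ 10 * X + 2 := by linarith
  have h2T : 2 * T ≤ T ^ 2 + 1 := by nlinarith [sq_nonneg (T - 1)]
  have e : ((1 + 5 * X) * T + (10 * X + 2)) ^ 2 = (1 + 5 * X) ^ 2 * T ^ 2
      + (1 + 5 * X) * (10 * X + 2) * (2 * T) + (10 * X + 2) ^ 2 := by ring
  have t1 : (1 + 5 * X) ^ 2 * T ^ 2 ≤ (1 + 5 * X) ^ 2 * N0 :=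
    mul_le_mul_of_nonneg_left hT2 (sq_nonneg _)
  have t2 : (1 + 5 * X) * (10 * X + 2) * (2 * T) ≤ (1 + 5 * X) * (10 * X + 2) * (2 * N0) :=
    mul_le_mul_of_nonneg_left (by linarith) (mul_nonneg hα hβ)
  have t3 : (10 * X + 2) ^ 2 ≤ (10 * X + 2) ^ 2 * N0 :=
    le_mul_of_one_le_right (sq_nonneg _) hN
  have t4 : K ≤ X * N0 := by
    have : X ≤ X * N0 := le_mul_of_one_le_right (by linarith) hN
    linarith
  have hpoly : (15 * X + 3) ^ 2 + X ≤ 256 * X ^ 2 := by nlinarith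
  have t5 : ((15 * X + 3) ^ 2 + X) * N0 ≤ 256 * X ^ 2 * N0 :=
    mul_le_mul_of_nonneg_right hpoly (by linarith)
  have e2 : ((15 * X + 3) ^ 2 + X) * N0 = (1 + 5 * X) ^ 2 * N0
      + (1 + 5 * X) * (10 * X + 2) * (2 * N0) + (10 * X + 2) ^ 2 * N0 + X * N0 := by ring
  rw [e]
  linarith

/-- **Explicit bound.** A walk on the Gaussian primes with steps of length at most `k` in the
strip of half-width `B` around the line `a x + b y = c`, `a^2 + b^2 = 1`, satisfies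
`N(z n) ≤ 256 ((2 K + 1)!)^4 N(z 0)` for every `n`, for any natural number
`K ≥ (B + |c| + 1)^2 + (k + 2)^2`. -/
theorem quant_walk (z : ℕ → GaussianInt) (k K : ℕ) (a b c B : ℝ) (h1 : a ^ 2 + b ^ 2 = 1)
    (hK : (B + |c| + 1) ^ 2 + ((k : ℝ) + 2) ^ 2 ≤ K)
    (hprime : ∀ n, Prime (z n))
    (hstep : ∀ n, Zsqrtd.norm (z (n + 1) - z n) ≤ (k : ℤ) ^ 2)
    (hstrip : ∀ n, |a * (z n).re + b * (z n).im - c| ≤ B) :
    ∀ n, Zsqrtd.norm (z n)
      ≤ 256 * (((2 * K + 1).factorial : ℕ) : ℤ) ^ 4 * Zsqrtd.norm (z 0) := by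
  have hB : 0 ≤ B := le_trans (abs_nonneg _) (hstrip 0)
  have hc0 : 0 ≤ |c| := abs_nonneg c
  have hk0 : (0 : ℝ) ≤ k := by positivity
  have hρ : 0 < a ^ 2 + b ^ 2 := by rw [h1]; exact one_pos
  have hσ2 : a ^ 2 + b ^ 2 < (2 : ℝ) ^ 2 := by rw [h1]; norm_num
  have hK' : ((B + |c| + 1) ^ 2 + (2 + (k : ℝ)) ^ 2) / (a ^ 2 + b ^ 2) ≤ K := by
    rw [h1, div_one]
    have e : (2 + (k : ℝ)) ^ 2 = ((k : ℝ) + 2) ^ 2 := by ring
    rw [e]; exact hK
  have hBc : (|c| + B) ^ 2 ≤ (K : ℝ) := by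
    have h2 : (|c| + B) ^ 2 ≤ (B + |c| + 1) ^ 2 := by nlinarith
    have h3 := sq_nonneg ((k : ℝ) + 2)
    linarith
  have hK1 : (1 : ℝ) ≤ K := by
    have h2 : (1 : ℝ) ≤ (B + |c| + 1) ^ 2 := by nlinarith
    have h3 := sq_nonneg ((k : ℝ) + 2)
    linarith
  have hK1' : 1 ≤ K := by exact_mod_cast hK1
  have hMge : 2 * K + 1 ≤ (2 * K + 1).factorial := Nat.self_le_factorial _
  have hM3 : 3 ≤ (2 * K + 1).factorial := by omega
  obtain ⟨q0, hq0def⟩ : ∃ q0 : ℝ, q0 = -b * (z 0).re + a * (z 0).im := ⟨_, rfl⟩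
  obtain ⟨u, v, μ, hg, hTμ, hμup, epos, epos', hl, hl'⟩ :=
    quant_centres a b c h1 (2 * K + 1).factorial hM3 |q0| (abs_nonneg q0)
  have hg' : (-u ≠ 0 ∨ -v ≠ 0) := by
    rcases hg with h | h
    · exact Or.inl (neg_ne_zero.mpr h)
    · exact Or.inr (neg_ne_zero.mpr h)
  -- the walk never passes the two centres
  have hinv : ∀ n, -μ - 2 < (-b * (z n).re + a * (z n).im)
      ∧ (-b * (z n).re + a * (z n).im) < μ + 2 := by
    intro n
    induction n with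
    | zero =>
      rw [← hq0def]
      have := abs_lt.mp (show |q0| < μ from hTμ)
      constructor <;> linarith
    | succ n ih =>
      have hsn := abs_le.mp (step_along_unit (z n) (z (n + 1)) k a b h1 (hstep n))
      constructor
      · by_contra hcon
        rw [not_lt] at hcon
        refine strip_block a b c B 2 k hρ hσ2 (by norm_num) K hK' (-u) (-v) (z (n + 1)) hg'
          hl' (hstrip (n + 1)) ?_ ?_ (hprime (n + 1))
        · rw [epos', abs_of_nonpos (by linarith)]; linarith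
        · rw [epos', abs_of_nonpos (by linarith)]; linarith [ih.1]
      · by_contra hcon
        rw [not_lt] at hcon
        refine strip_block a b c B 2 k hρ hσ2 (by norm_num) K hK' u v (z (n + 1)) hg
          hl (hstrip (n + 1)) ?_ ?_ (hprime (n + 1))
        · rw [epos, abs_of_nonneg (by linarith)]; linarith
        · rw [epos, abs_of_nonneg (by linarith)]; linarith [ih.2]
  clear hl hl' epos epos' hg hg' hK'
  -- the explicit bound
  intro n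
  obtain ⟨i1, i2⟩ := hinv n
  obtain ⟨Mr, hMr⟩ : ∃ Mr : ℝ, Mr = (((2 * K + 1).factorial : ℕ) : ℝ) := ⟨_, rfl⟩
  rw [← hMr] at hμup
  have hMr3 : 3 ≤ Mr := by rw [hMr]; exact_mod_cast hM3
  have hKM : (K : ℝ) ≤ Mr := by
    rw [hMr]; exact_mod_cast (by omega : K ≤ (2 * K + 1).factorial)
  have hidn : (a * (z n).re + b * (z n).im) ^ 2 + (-b * (z n).re + a * (z n).im) ^ 2
      = (((z n).norm : ℤ) : ℝ) := by
    have : (a * (z n).re + b * (z n).im) ^ 2 + (-b * (z n).re + a * (z n).im) ^ 2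
        = (a ^ 2 + b ^ 2) * (((z n).norm : ℤ) : ℝ) := by
      rw [gnorm]; push_cast; ring
    rw [this, h1, one_mul]
  have hid0 : q0 ^ 2 ≤ (((z 0).norm : ℤ) : ℝ) := by
    have : (a * (z 0).re + b * (z 0).im) ^ 2 + (-b * (z 0).re + a * (z 0).im) ^ 2
        = (a ^ 2 + b ^ 2) * (((z 0).norm : ℤ) : ℝ) := by
      rw [gnorm]; push_cast; ring
    rw [h1, one_mul, ← hq0def] at this
    have h2 := sq_nonneg (a * (z 0).re + b * (z 0).im)
    linarith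
  have hN01 : (1 : ℝ) ≤ (((z 0).norm : ℤ) : ℝ) := by
    exact_mod_cast one_le_gnorm (z 0) (hprime 0).ne_zero
  have hT2 : |q0| ^ 2 ≤ (((z 0).norm : ℤ) : ℝ) := by rw [sq_abs]; exact hid0
  have hX9 : (9 : ℝ) ≤ Mr ^ 2 := by nlinarith
  have hKX : (K : ℝ) ≤ Mr ^ 2 := by nlinarith
  have hperp : (a * (z n).re + b * (z n).im) ^ 2 ≤ (K : ℝ) := by
    have h2 : |a * (z n).re + b * (z n).im| ≤ |c| + B := by
      have e : a * (z n).re + b * (z n).im = c + (a * (z n).re + b * (z n).im - c) := by ring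
      rw [e]
      exact le_trans (abs_add_le _ _) (add_le_add le_rfl (hstrip n))
    have h3 : (a * (z n).re + b * (z n).im) ^ 2 ≤ (|c| + B) ^ 2 := by
      rw [← sq_abs (a * (z n).re + b * (z n).im)]
      exact pow_le_pow_left₀ (abs_nonneg _) h2 2
    linarith
  have halong : (-b * (z n).re + a * (z n).im) ^ 2
      ≤ ((1 + 5 * Mr ^ 2) * |q0| + (10 * Mr ^ 2 + 2)) ^ 2 := by
    have e : (1 + 5 * Mr ^ 2) * |q0| + (10 * Mr ^ 2 + 2)
        = |q0| + 5 * Mr ^ 2 * (|q0| + 2) + 2 := by ring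
    have h2 : |(-b * (z n).re + a * (z n).im)|
        ≤ (1 + 5 * Mr ^ 2) * |q0| + (10 * Mr ^ 2 + 2) := by
      rw [e, abs_le]
      constructor <;> linarith
    rw [← sq_abs (-b * (z n).re + a * (z n).im)]
    exact pow_le_pow_left₀ (abs_nonneg _) h2 2
  have hpoly := quant_poly (Mr ^ 2) |q0| (((z 0).norm : ℤ) : ℝ) hX9 hT2 hN01
    (K : ℝ) hKX
  have hreal : (((z n).norm : ℤ) : ℝ) ≤ 256 * Mr ^ 4 * (((z 0).norm : ℤ) : ℝ) := by
    have e : 256 * (Mr ^ 2) ^ 2 * (((z 0).norm : ℤ) : ℝ)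
        = 256 * Mr ^ 4 * (((z 0).norm : ℤ) : ℝ) := by ring
    rw [← e, ← hidn]
    linarith
  rw [hMr] at hreal
  exact_mod_cast hreal

/-- **Explicit bound, symmetric form.** In a walk on the Gaussian primes with steps of length
at most `k` in the strip of half-width `B` around the line `a x + b y = c`, `a^2 + b^2 = 1`,
the norms of any two terms differ by a factor of at most `256 ((2 K + 1)!)^4`, for any natural
number `K ≥ (B + |c| + 1)^2 + (k + 2)^2`. -/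
theorem quant_walk_pair (z : ℕ → GaussianInt) (k K : ℕ) (a b c B : ℝ) (h1 : a ^ 2 + b ^ 2 = 1)
    (hK : (B + |c| + 1) ^ 2 + ((k : ℝ) + 2) ^ 2 ≤ K)
    (hprime : ∀ n, Prime (z n))
    (hstep : ∀ n, Zsqrtd.norm (z (n + 1) - z n) ≤ (k : ℤ) ^ 2)
    (hstrip : ∀ n, |a * (z n).re + b * (z n).im - c| ≤ B) :
    ∀ m n, Zsqrtd.norm (z m)
      ≤ 256 * (((2 * K + 1).factorial : ℕ) : ℤ) ^ 4 * Zsqrtd.norm (z n) := by
  intro m n
  rcases le_or_gt n m with h | h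
  · have key := quant_walk (fun i => z (n + i)) k K a b c B h1 hK (fun i => hprime _)
      (fun i => hstep (n + i)) (fun i => hstrip _) (m - n)
    simp only [add_zero] at key
    rwa [Nat.add_sub_cancel' h] at key
  · have key := quant_walk (fun i => z (n - i)) k K a b c B h1 hK (fun i => hprime _) ?_
      (fun i => hstrip _) (n - m)
    · simp only [Nat.sub_zero] at key
      have e : n - (n - m) = m := Nat.sub_sub_self h.le
      rwa [e] at key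
    · intro i
      show Zsqrtd.norm (z (n - (i + 1)) - z (n - i)) ≤ (k : ℤ) ^ 2
      rcases Nat.lt_or_ge i n with hi | hi
      · have e : n - i = (n - (i + 1)) + 1 := by omega
        rw [e]
        have h2 := hstep (n - (i + 1))
        have e2 : z (n - (i + 1)) - z (n - (i + 1) + 1)
            = -(z (n - (i + 1) + 1) - z (n - (i + 1))) := by ring
        rw [e2, Zsqrtd.norm_neg]
        exact h2
      · have e1 : n - (i + 1) = 0 := by omega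
        have e2 : n - i = 0 := by omega
        rw [e1, e2, sub_self, Zsqrtd.norm_zero]
        positivity

/-- **Prime-free disks at explicit positions.** For the line `a x + b y = c`, `a^2 + b^2 = 1`,
every radius `R ≥ 0`, every position `T ≥ 0` along the line and every natural number
`K ≥ (R + |c| + 1)^2 + (2 R + 2)^2` there is a point `(x, y)` of the line whose position
`-b x + a y` along the line lies between `T` and `6 ((2 K + 1)!)^2 (T + 2)` and whose distance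
to every Gaussian prime exceeds `R`. -/
theorem quant_disk (a b c : ℝ) (h1 : a ^ 2 + b ^ 2 = 1) (R T : ℝ) (hR : 0 ≤ R) (hT : 0 ≤ T)
    (K : ℕ) (hK : (R + |c| + 1) ^ 2 + (2 * R + 2) ^ 2 ≤ K) :
    ∃ x y : ℝ, a * x + b * y = c ∧ T ≤ -b * x + a * y ∧
      -b * x + a * y ≤ 6 * (((2 * K + 1).factorial : ℕ) : ℝ) ^ 2 * (T + 2) ∧
      ∀ z : GaussianInt, Prime z → R ^ 2 < ((z.re : ℝ) - x) ^ 2 + ((z.im : ℝ) - y) ^ 2 := by
  have hc0 : 0 ≤ |c| := abs_nonneg c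
  have hρ : 0 < a ^ 2 + b ^ 2 := by rw [h1]; exact one_pos
  have hσ2 : a ^ 2 + b ^ 2 < (2 : ℝ) ^ 2 := by rw [h1]; norm_num
  have hK' : ((R + |c| + 1) ^ 2 + (2 + 2 * R) ^ 2) / (a ^ 2 + b ^ 2) ≤ K := by
    rw [h1, div_one]
    have e : (2 + 2 * R) ^ 2 = (2 * R + 2) ^ 2 := by ring
    rw [e]; exact hK
  have hK1 : (1 : ℝ) ≤ K := by
    have h2 : (1 : ℝ) ≤ (R + |c| + 1) ^ 2 := by nlinarith
    have h3 := sq_nonneg (2 * R + 2)
    linarith
  have hRK : R + 2 ≤ (K : ℝ) := by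
    have h2 : (0 : ℝ) ≤ (R + |c| + 1) ^ 2 := sq_nonneg _
    nlinarith
  have hK1' : 1 ≤ K := by exact_mod_cast hK1
  have hMge : 2 * K + 1 ≤ (2 * K + 1).factorial := Nat.self_le_factorial _
  have hM3 : 3 ≤ (2 * K + 1).factorial := by omega
  obtain ⟨u, v, μ, hg, hTμ, hμup, epos, -, hl, -⟩ :=
    quant_centres a b c h1 (2 * K + 1).factorial hM3 T hT
  obtain ⟨Mr, hMr⟩ : ∃ Mr : ℝ, Mr = (((2 * K + 1).factorial : ℕ) : ℝ) := ⟨_, rfl⟩
  rw [← hMr] at hμup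
  have hMr3 : 3 ≤ Mr := by rw [hMr]; exact_mod_cast hM3
  have hKM : (K : ℝ) ≤ Mr := by
    rw [hMr]; exact_mod_cast (by omega : K ≤ (2 * K + 1).factorial)
  refine ⟨a * c - b * (μ + 2 + R), b * c + a * (μ + 2 + R), ?_, ?_, ?_, ?_⟩
  · have e : a * (a * c - b * (μ + 2 + R)) + b * (b * c + a * (μ + 2 + R))
        = (a ^ 2 + b ^ 2) * c := by ring
    rw [e, h1, one_mul]
  · have e : -b * (a * c - b * (μ + 2 + R)) + a * (b * c + a * (μ + 2 + R))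
        = (a ^ 2 + b ^ 2) * (μ + 2 + R) := by ring
    rw [e, h1, one_mul]; linarith
  · have e : -b * (a * c - b * (μ + 2 + R)) + a * (b * c + a * (μ + 2 + R))
        = (a ^ 2 + b ^ 2) * (μ + 2 + R) := by ring
    rw [e, h1, one_mul, ← hMr]
    have h9 : (9 : ℝ) ≤ Mr ^ 2 := by nlinarith
    have hKM2 : (K : ℝ) ≤ Mr ^ 2 := by nlinarith
    have h2 : T ≤ Mr ^ 2 * T := by nlinarith
    nlinarith
  · intro z hz
    by_contra hcon
    rw [not_lt] at hcon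
    have e1 : a * ((z.re : ℝ) - (a * c - b * (μ + 2 + R)))
        + b * ((z.im : ℝ) - (b * c + a * (μ + 2 + R)))
        = a * z.re + b * z.im - (a ^ 2 + b ^ 2) * c := by ring
    have e2 : -b * ((z.re : ℝ) - (a * c - b * (μ + 2 + R)))
        + a * ((z.im : ℝ) - (b * c + a * (μ + 2 + R)))
        = (-b * z.re + a * z.im) - (a ^ 2 + b ^ 2) * (μ + 2 + R) := by ring
    rw [h1, one_mul] at e1 e2
    have hid : (a * z.re + b * z.im - c) ^ 2 + ((-b * z.re + a * z.im) - (μ + 2 + R)) ^ 2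
        = (a ^ 2 + b ^ 2) * (((z.re : ℝ) - (a * c - b * (μ + 2 + R))) ^ 2
          + ((z.im : ℝ) - (b * c + a * (μ + 2 + R))) ^ 2) := by
      rw [← e1, ← e2]; ring
    rw [h1, one_mul] at hid
    have hle : (a * z.re + b * z.im - c) ^ 2 + ((-b * z.re + a * z.im) - (μ + 2 + R)) ^ 2
        ≤ R ^ 2 := by
      rw [hid]; exact hcon
    have hu : |a * z.re + b * z.im - c| ≤ R := by
      apply abs_le_of_sq_le_sq _ hR
      exact le_trans (le_add_of_nonneg_right (sq_nonneg _)) hle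
    have hw : |(-b * z.re + a * z.im) - (μ + 2 + R)| ≤ R := by
      apply abs_le_of_sq_le_sq _ hR
      exact le_trans (le_add_of_nonneg_left (sq_nonneg _)) hle
    have hw' := abs_le.mp hw
    refine strip_block a b c R 2 (2 * R) hρ hσ2 (by norm_num) K hK' u v z hg hl hu ?_ ?_ hz
    · rw [epos, abs_of_nonneg (by linarith)]; linarith
    · rw [epos, abs_of_nonneg (by linarith)]; linarith

end Vale.Agent.H4
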