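import Vale.Agent.H4.LogHorn
import Vale.Agent.H4.Quant

/-!
# Explicit bounds for Gaussian primes near a line, with an exponential constant

The statements of `Quant.lean` with the modulus `pmod K = (2 K + 1) * K#` (at most `16 ^ K`) in
place of `(2 K + 1)!`:

* `pquant_walk_exp`: in a walk on the Gaussian primes with steps of length at most `k` within
  distance `B` of a line at distance `|c|` from the origin, the norms of any two terms differ by
  a factor of at most `2 ^ (16 K + 8)`, for `K ≥ (B + |c| + 1)^2 + (k + 2)^2`.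
* `pquant_disk_exp`: beyond every position `T ≥ 0` along the line there is a prime-free disk of
  radius `R` centred on the line at a position at most `6 * 256 ^ K * (T + 2)`, for
  `K ≥ (R + |c| + 1)^2 + (2 R + 2)^2`.
-/

namespace Vale.Agent.H4

/-- **Explicit bound.** A walk on the Gaussian primes with steps of length at most `k` in the
strip of half-width `B` around the line `a x + b y = c`, `a^2 + b^2 = 1`, satisfies
`N(z n) ≤ 256 (pmod K)^4 N(z 0)` for every `n`, for any natural number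
`K ≥ (B + |c| + 1)^2 + (k + 2)^2`. -/
theorem pquant_walk (z : ℕ → GaussianInt) (k K : ℕ) (a b c B : ℝ) (h1 : a ^ 2 + b ^ 2 = 1)
    (hK : (B + |c| + 1) ^ 2 + ((k : ℝ) + 2) ^ 2 ≤ K)
    (hprime : ∀ n, Prime (z n))
    (hstep : ∀ n, Zsqrtd.norm (z (n + 1) - z n) ≤ (k : ℤ) ^ 2)
    (hstrip : ∀ n, |a * (z n).re + b * (z n).im - c| ≤ B) :
    ∀ n, Zsqrtd.norm (z n)
      ≤ 256 * ((pmod K : ℕ) : ℤ) ^ 4 * Zsqrtd.norm (z 0) := by
  have hB : 0 ≤ B := le_trans (abs_nonneg _) (hstrip 0)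
  have hc0 : 0 ≤ |c| := abs_nonneg c
  have hk0 : (0 : ℝ) ≤ k := by positivity
  have hρ : 0 < a ^ 2 + b ^ 2 := by rw [h1]; exact one_pos
  have hσ2 : a ^ 2 + b ^ 2 < (2 : ℝ) ^ 2 := by rw [h1]; norm_num
  have hK' : ((B + |c| + 1) ^ 2 + (2 + (k : ℝ)) ^ 2) / (a ^ 2 + b ^ 2) ≤ K := by
    rw [h1, div_one]
    have e : (2 + (k : ℝ)) ^ 2 = ((k : ℝ) + 2) ^ 2 := by ring
    rw [e]; exact hK
  have hBc : (|c| + B) ^ 2 ≤ (K : ℝ) := by
    have h2 : (|c| + B) ^ 2 ≤ (B + |c| + 1) ^ 2 := by nlinarith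
    have h3 := sq_nonneg ((k : ℝ) + 2)
    linarith
  have hK1 : (1 : ℝ) ≤ K := by
    have h2 : (1 : ℝ) ≤ (B + |c| + 1) ^ 2 := by nlinarith
    have h3 := sq_nonneg ((k : ℝ) + 2)
    linarith
  have hK1' : 1 ≤ K := by exact_mod_cast hK1
  have hMge : 2 * K + 1 ≤ pmod K := pmod_ge K
  have hM3 : 3 ≤ pmod K := by omega
  obtain ⟨q0, hq0def⟩ : ∃ q0 : ℝ, q0 = -b * (z 0).re + a * (z 0).im := ⟨_, rfl⟩
  obtain ⟨u, v, μ, hg, hTμ, hμup, epos, epos', hl, hl'⟩ :=
    quant_centres a b c h1 (pmod K) hM3 |q0| (abs_nonneg q0)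
  have hg' : (-u ≠ 0 ∨ -v ≠ 0) := by
    rcases hg with h | h
    · exact Or.inl (neg_ne_zero.mpr h)
    · exact Or.inr (neg_ne_zero.mpr h)
  -- the walk never passes the two centres
  have hinv : ∀ n, -μ - 2 < (-b * (z n).re + a * (z n).im)
      ∧ (-b * (z n).re + a * (z n).im) < μ + 2 := by
    intro n
    induction n with
    | zero =>
      rw [← hq0def]
      have := abs_lt.mp (show |q0| < μ from hTμ)
      constructor <;> linarith
    | succ n ih =>
      have hsn := abs_le.mp (step_along_unit (z n) (z (n + 1)) k a b h1 (hstep n))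
      constructor
      · by_contra hcon
        rw [not_lt] at hcon
        refine strip_block_pr a b c B 2 k hρ hσ2 (by norm_num) K hK' (-u) (-v) (z (n + 1)) hg'
          hl' (hstrip (n + 1)) ?_ ?_ (hprime (n + 1))
        · rw [epos', abs_of_nonpos (by linarith)]; linarith
        · rw [epos', abs_of_nonpos (by linarith)]; linarith [ih.1]
      · by_contra hcon
        rw [not_lt] at hcon
        refine strip_block_pr a b c B 2 k hρ hσ2 (by norm_num) K hK' u v (z (n + 1)) hg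
          hl (hstrip (n + 1)) ?_ ?_ (hprime (n + 1))
        · rw [epos, abs_of_nonneg (by linarith)]; linarith
        · rw [epos, abs_of_nonneg (by linarith)]; linarith [ih.2]
  clear hl hl' epos epos' hg hg' hK'
  -- the explicit bound
  intro n
  obtain ⟨i1, i2⟩ := hinv n
  obtain ⟨Mr, hMr⟩ : ∃ Mr : ℝ, Mr = ((pmod K : ℕ) : ℝ) := ⟨_, rfl⟩
  rw [← hMr] at hμup
  have hMr3 : 3 ≤ Mr := by rw [hMr]; exact_mod_cast hM3
  have hKM : (K : ℝ) ≤ Mr := by
    rw [hMr]; exact_mod_cast (by omega : K ≤ pmod K)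
  have hidn : (a * (z n).re + b * (z n).im) ^ 2 + (-b * (z n).re + a * (z n).im) ^ 2
      = (((z n).norm : ℤ) : ℝ) := by
    have : (a * (z n).re + b * (z n).im) ^ 2 + (-b * (z n).re + a * (z n).im) ^ 2
        = (a ^ 2 + b ^ 2) * (((z n).norm : ℤ) : ℝ) := by
      rw [gnorm]; push_cast; ring
    rw [this, h1, one_mul]
  have hid0 : q0 ^ 2 ≤ (((z 0).norm : ℤ) : ℝ) := by
    have : (a * (z 0).re + b * (z 0).im) ^ 2 + (-b * (z 0).re + a * (z 0).im) ^ 2
        = (a ^ 2 + b ^ 2) * (((z 0).norm : ℤ) : ℝ) := by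
      rw [gnorm]; push_cast; ring
    rw [h1, one_mul, ← hq0def] at this
    have h2 := sq_nonneg (a * (z 0).re + b * (z 0).im)
    linarith
  have hN01 : (1 : ℝ) ≤ (((z 0).norm : ℤ) : ℝ) := by
    exact_mod_cast one_le_gnorm (z 0) (hprime 0).ne_zero
  have hT2 : |q0| ^ 2 ≤ (((z 0).norm : ℤ) : ℝ) := by rw [sq_abs]; exact hid0
  have hX9 : (9 : ℝ) ≤ Mr ^ 2 := by nlinarith
  have hKX : (K : ℝ) ≤ Mr ^ 2 := by nlinarith
  have hperp : (a * (z n).re + b * (z n).im) ^ 2 ≤ (K : ℝ) := by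
    have h2 : |a * (z n).re + b * (z n).im| ≤ |c| + B := by
      have e : a * (z n).re + b * (z n).im = c + (a * (z n).re + b * (z n).im - c) := by ring
      rw [e]
      exact le_trans (abs_add_le _ _) (add_le_add le_rfl (hstrip n))
    have h3 : (a * (z n).re + b * (z n).im) ^ 2 ≤ (|c| + B) ^ 2 := by
      rw [← sq_abs (a * (z n).re + b * (z n).im)]
      exact pow_le_pow_left₀ (abs_nonneg _) h2 2
    linarith
  have halong : (-b * (z n).re + a * (z n).im) ^ 2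
      ≤ ((1 + 5 * Mr ^ 2) * |q0| + (10 * Mr ^ 2 + 2)) ^ 2 := by
    have e : (1 + 5 * Mr ^ 2) * |q0| + (10 * Mr ^ 2 + 2)
        = |q0| + 5 * Mr ^ 2 * (|q0| + 2) + 2 := by ring
    have h2 : |(-b * (z n).re + a * (z n).im)|
        ≤ (1 + 5 * Mr ^ 2) * |q0| + (10 * Mr ^ 2 + 2) := by
      rw [e, abs_le]
      constructor <;> linarith
    rw [← sq_abs (-b * (z n).re + a * (z n).im)]
    exact pow_le_pow_left₀ (abs_nonneg _) h2 2
  have hpoly := quant_poly (Mr ^ 2) |q0| (((z 0).norm : ℤ) : ℝ) hX9 hT2 hN01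
    (K : ℝ) hKX
  have hreal : (((z n).norm : ℤ) : ℝ) ≤ 256 * Mr ^ 4 * (((z 0).norm : ℤ) : ℝ) := by
    have e : 256 * (Mr ^ 2) ^ 2 * (((z 0).norm : ℤ) : ℝ)
        = 256 * Mr ^ 4 * (((z 0).norm : ℤ) : ℝ) := by ring
    rw [← e, ← hidn]
    linarith
  rw [hMr] at hreal
  exact_mod_cast hreal

/-- **Explicit bound, symmetric form.** In a walk on the Gaussian primes with steps of length
at most `k` in the strip of half-width `B` around the line `a x + b y = c`, `a^2 + b^2 = 1`,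
the norms of any two terms differ by a factor of at most `256 (pmod K)^4`, for any natural
number `K ≥ (B + |c| + 1)^2 + (k + 2)^2`. -/
theorem pquant_walk_pair (z : ℕ → GaussianInt) (k K : ℕ) (a b c B : ℝ) (h1 : a ^ 2 + b ^ 2 = 1)
    (hK : (B + |c| + 1) ^ 2 + ((k : ℝ) + 2) ^ 2 ≤ K)
    (hprime : ∀ n, Prime (z n))
    (hstep : ∀ n, Zsqrtd.norm (z (n + 1) - z n) ≤ (k : ℤ) ^ 2)
    (hstrip : ∀ n, |a * (z n).re + b * (z n).im - c| ≤ B) :
    ∀ m n, Zsqrtd.norm (z m)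
      ≤ 256 * ((pmod K : ℕ) : ℤ) ^ 4 * Zsqrtd.norm (z n) := by
  intro m n
  rcases le_or_gt n m with h | h
  · have key := pquant_walk (fun i => z (n + i)) k K a b c B h1 hK (fun i => hprime _)
      (fun i => hstep (n + i)) (fun i => hstrip _) (m - n)
    simp only [add_zero] at key
    rwa [Nat.add_sub_cancel' h] at key
  · have key := pquant_walk (fun i => z (n - i)) k K a b c B h1 hK (fun i => hprime _) ?_
      (fun i => hstrip _) (n - m)
    · simp only [Nat.sub_zero] at key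
      have e : n - (n - m) = m := Nat.sub_sub_self h.le
      rwa [e] at key
    · intro i
      show Zsqrtd.norm (z (n - (i + 1)) - z (n - i)) ≤ (k : ℤ) ^ 2
      rcases Nat.lt_or_ge i n with hi | hi
      · have e : n - i = (n - (i + 1)) + 1 := by omega
        rw [e]
        have h2 := hstep (n - (i + 1))
        have e2 : z (n - (i + 1)) - z (n - (i + 1) + 1)
            = -(z (n - (i + 1) + 1) - z (n - (i + 1))) := by ring
        rw [e2, Zsqrtd.norm_neg]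
        exact h2
      · have e1 : n - (i + 1) = 0 := by omega
        have e2 : n - i = 0 := by omega
        rw [e1, e2, sub_self, Zsqrtd.norm_zero]
        positivity

/-- **Prime-free disks at explicit positions.** For the line `a x + b y = c`, `a^2 + b^2 = 1`,
every radius `R ≥ 0`, every position `T ≥ 0` along the line and every natural number
`K ≥ (R + |c| + 1)^2 + (2 R + 2)^2` there is a point `(x, y)` of the line whose position
`-b x + a y` along the line lies between `T` and `6 (pmod K)^2 (T + 2)` and whose distance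
to every Gaussian prime exceeds `R`. -/
theorem pquant_disk (a b c : ℝ) (h1 : a ^ 2 + b ^ 2 = 1) (R T : ℝ) (hR : 0 ≤ R) (hT : 0 ≤ T)
    (K : ℕ) (hK : (R + |c| + 1) ^ 2 + (2 * R + 2) ^ 2 ≤ K) :
    ∃ x y : ℝ, a * x + b * y = c ∧ T ≤ -b * x + a * y ∧
      -b * x + a * y ≤ 6 * ((pmod K : ℕ) : ℝ) ^ 2 * (T + 2) ∧
      ∀ z : GaussianInt, Prime z → R ^ 2 < ((z.re : ℝ) - x) ^ 2 + ((z.im : ℝ) - y) ^ 2 := by
  have hc0 : 0 ≤ |c| := abs_nonneg c
  have hρ : 0 < a ^ 2 + b ^ 2 := by rw [h1]; exact one_pos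
  have hσ2 : a ^ 2 + b ^ 2 < (2 : ℝ) ^ 2 := by rw [h1]; norm_num
  have hK' : ((R + |c| + 1) ^ 2 + (2 + 2 * R) ^ 2) / (a ^ 2 + b ^ 2) ≤ K := by
    rw [h1, div_one]
    have e : (2 + 2 * R) ^ 2 = (2 * R + 2) ^ 2 := by ring
    rw [e]; exact hK
  have hK1 : (1 : ℝ) ≤ K := by
    have h2 : (1 : ℝ) ≤ (R + |c| + 1) ^ 2 := by nlinarith
    have h3 := sq_nonneg (2 * R + 2)
    linarith
  have hRK : R + 2 ≤ (K : ℝ) := by
    have h2 : (0 : ℝ) ≤ (R + |c| + 1) ^ 2 := sq_nonneg _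
    nlinarith
  have hK1' : 1 ≤ K := by exact_mod_cast hK1
  have hMge : 2 * K + 1 ≤ pmod K := pmod_ge K
  have hM3 : 3 ≤ pmod K := by omega
  obtain ⟨u, v, μ, hg, hTμ, hμup, epos, -, hl, -⟩ :=
    quant_centres a b c h1 (pmod K) hM3 T hT
  obtain ⟨Mr, hMr⟩ : ∃ Mr : ℝ, Mr = ((pmod K : ℕ) : ℝ) := ⟨_, rfl⟩
  rw [← hMr] at hμup
  have hMr3 : 3 ≤ Mr := by rw [hMr]; exact_mod_cast hM3
  have hKM : (K : ℝ) ≤ Mr := by
    rw [hMr]; exact_mod_cast (by omega : K ≤ pmod K)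
  refine ⟨a * c - b * (μ + 2 + R), b * c + a * (μ + 2 + R), ?_, ?_, ?_, ?_⟩
  · have e : a * (a * c - b * (μ + 2 + R)) + b * (b * c + a * (μ + 2 + R))
        = (a ^ 2 + b ^ 2) * c := by ring
    rw [e, h1, one_mul]
  · have e : -b * (a * c - b * (μ + 2 + R)) + a * (b * c + a * (μ + 2 + R))
        = (a ^ 2 + b ^ 2) * (μ + 2 + R) := by ring
    rw [e, h1, one_mul]; linarith
  · have e : -b * (a * c - b * (μ + 2 + R)) + a * (b * c + a * (μ + 2 + R))
        = (a ^ 2 + b ^ 2) * (μ + 2 + R) := by ring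
    rw [e, h1, one_mul, ← hMr]
    have h9 : (9 : ℝ) ≤ Mr ^ 2 := by nlinarith
    have hKM2 : (K : ℝ) ≤ Mr ^ 2 := by nlinarith
    have h2 : T ≤ Mr ^ 2 * T := by nlinarith
    nlinarith
  · intro z hz
    by_contra hcon
    rw [not_lt] at hcon
    have e1 : a * ((z.re : ℝ) - (a * c - b * (μ + 2 + R)))
        + b * ((z.im : ℝ) - (b * c + a * (μ + 2 + R)))
        = a * z.re + b * z.im - (a ^ 2 + b ^ 2) * c := by ring
    have e2 : -b * ((z.re : ℝ) - (a * c - b * (μ + 2 + R)))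
        + a * ((z.im : ℝ) - (b * c + a * (μ + 2 + R)))
        = (-b * z.re + a * z.im) - (a ^ 2 + b ^ 2) * (μ + 2 + R) := by ring
    rw [h1, one_mul] at e1 e2
    have hid : (a * z.re + b * z.im - c) ^ 2 + ((-b * z.re + a * z.im) - (μ + 2 + R)) ^ 2
        = (a ^ 2 + b ^ 2) * (((z.re : ℝ) - (a * c - b * (μ + 2 + R))) ^ 2
          + ((z.im : ℝ) - (b * c + a * (μ + 2 + R))) ^ 2) := by
      rw [← e1, ← e2]; ring
    rw [h1, one_mul] at hid
    have hle : (a * z.re + b * z.im - c) ^ 2 + ((-b * z.re + a * z.im) - (μ + 2 + R)) ^ 2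
        ≤ R ^ 2 := by
      rw [hid]; exact hcon
    have hu : |a * z.re + b * z.im - c| ≤ R := by
      apply abs_le_of_sq_le_sq _ hR
      exact le_trans (le_add_of_nonneg_right (sq_nonneg _)) hle
    have hw : |(-b * z.re + a * z.im) - (μ + 2 + R)| ≤ R := by
      apply abs_le_of_sq_le_sq _ hR
      exact le_trans (le_add_of_nonneg_left (sq_nonneg _)) hle
    have hw' := abs_le.mp hw
    refine strip_block_pr a b c R 2 (2 * R) hρ hσ2 (by norm_num) K hK' u v z hg hl hu ?_ ?_ hz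
    · rw [epos, abs_of_nonneg (by linarith)]; linarith
    · rw [epos, abs_of_nonneg (by linarith)]; linarith


/-- **Explicit bound, exponential form.** -/
theorem pquant_walk_exp (z : ℕ → GaussianInt) (k K : ℕ) (a b c B : ℝ) (h1 : a ^ 2 + b ^ 2 = 1)
    (hK : (B + |c| + 1) ^ 2 + ((k : ℝ) + 2) ^ 2 ≤ K)
    (hprime : ∀ n, Prime (z n))
    (hstep : ∀ n, Zsqrtd.norm (z (n + 1) - z n) ≤ (k : ℤ) ^ 2)
    (hstrip : ∀ n, |a * (z n).re + b * (z n).im - c| ≤ B) :
    ∀ m n, Zsqrtd.norm (z m) ≤ 2 ^ (16 * K + 8) * Zsqrtd.norm (z n) := by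
  intro m n
  have h := pquant_walk_pair z k K a b c B h1 hK hprime hstep hstrip m n
  have hnn : 0 ≤ Zsqrtd.norm (z n) := Zsqrtd.norm_nonneg (by norm_num) (z n)
  have hM : ((pmod K : ℕ) : ℤ) ≤ (16 : ℤ) ^ K := by exact_mod_cast pmod_le K
  have hM0 : (0 : ℤ) ≤ ((pmod K : ℕ) : ℤ) := by positivity
  have h4 : ((pmod K : ℕ) : ℤ) ^ 4 ≤ ((16 : ℤ) ^ K) ^ 4 := pow_le_pow_left₀ hM0 hM 4
  have e : (256 : ℤ) * ((16 : ℤ) ^ K) ^ 4 = 2 ^ (16 * K + 8) := by
    have e16 : (16 : ℤ) = 2 ^ 4 := by norm_num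
    have e256 : (256 : ℤ) = 2 ^ 8 := by norm_num
    rw [e16, e256, ← pow_mul, ← pow_mul, ← pow_add]
    congr 1
    ring
  calc Zsqrtd.norm (z m) ≤ 256 * ((pmod K : ℕ) : ℤ) ^ 4 * Zsqrtd.norm (z n) := h
    _ ≤ 256 * ((16 : ℤ) ^ K) ^ 4 * Zsqrtd.norm (z n) :=
        mul_le_mul_of_nonneg_right (mul_le_mul_of_nonneg_left h4 (by norm_num)) hnn
    _ = 2 ^ (16 * K + 8) * Zsqrtd.norm (z n) := by rw [e]

/-- **Prime-free disks at explicit positions, exponential form.** -/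
theorem pquant_disk_exp (a b c : ℝ) (h1 : a ^ 2 + b ^ 2 = 1) (R T : ℝ) (hR : 0 ≤ R) (hT : 0 ≤ T)
    (K : ℕ) (hK : (R + |c| + 1) ^ 2 + (2 * R + 2) ^ 2 ≤ K) :
    ∃ x y : ℝ, a * x + b * y = c ∧ T ≤ -b * x + a * y ∧
      -b * x + a * y ≤ 6 * (256 : ℝ) ^ K * (T + 2) ∧
      ∀ z : GaussianInt, Prime z → R ^ 2 < ((z.re : ℝ) - x) ^ 2 + ((z.im : ℝ) - y) ^ 2 := by
  obtain ⟨x, y, hxy, hT1, hT2, hfree⟩ := pquant_disk a b c h1 R T hR hT K hK
  refine ⟨x, y, hxy, hT1, le_trans hT2 ?_, hfree⟩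
  have hM : ((pmod K : ℕ) : ℝ) ≤ (16 : ℝ) ^ K := by exact_mod_cast pmod_le K
  have hM0 : (0 : ℝ) ≤ ((pmod K : ℕ) : ℝ) := by positivity
  have h2 : ((pmod K : ℕ) : ℝ) ^ 2 ≤ ((16 : ℝ) ^ K) ^ 2 := pow_le_pow_left₀ hM0 hM 2
  have e : ((16 : ℝ) ^ K) ^ 2 = (256 : ℝ) ^ K := by
    rw [← pow_mul, mul_comm, pow_mul]; norm_num
  rw [e] at h2
  have hT0 : 0 ≤ T + 2 := by linarith
  exact mul_le_mul_of_nonneg_right (mul_le_mul_of_nonneg_left h2 (by norm_num)) hT0

end Vale.Agent.H4
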