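import Vale.Agent.H4.GaussPrime

/-!
# Gaussian primes in a strip

No infinite sequence of distinct Gaussian primes with bounded steps stays within bounded distance
of a real line, whatever the slope of the line.

* `block`: with `M = (2 K + 1)!`, every `M * g + d` with `g ≠ 0` and `2 ≤ N d ≤ K` is divisible
  by `d` and is not prime.
* `approx`: for every real line `a x + b y = c` and every `M > 0` there are nonzero `g` in `ℤ²`
  with `M g` within `|c| + 1` of the line (in the scale of `(a, b)`) and arbitrarily far along it.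
* `strip_walk_finite`, `no_strip_walk`: the theorem.
-/

namespace Vale.Agent.H4

theorem block (K : ℕ) (g d : GaussianInt) (hg : g ≠ 0) (h2 : 2 ≤ d.norm) (hK : d.norm ≤ K) :
    ¬ Prime ((((2 * K + 1).factorial : ℕ) : GaussianInt) * g + d) := by
  intro hp
  have hMge : 2 * K + 1 ≤ (2 * K + 1).factorial := Nat.self_le_factorial _
  generalize hM : (2 * K + 1).factorial = M at hp hMge
  have hdn : d ∣ ((d.norm : ℤ) : GaussianInt) := ⟨star d, Zsqrtd.norm_eq_mul_conj d⟩
  have hnM : d.norm.natAbs ∣ M := by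
    rw [← hM]
    apply Nat.dvd_factorial
    · omega
    · omega
  have hdM : d ∣ ((M : ℕ) : GaussianInt) := by
    obtain ⟨q, hq⟩ := hnM
    have h : ((M : ℕ) : GaussianInt) = ((d.norm : ℤ) : GaussianInt) * (q : GaussianInt) := by
      have h1 : (M : ℤ) = d.norm * q := by
        rw [hq]; push_cast
        rw [abs_of_nonneg (by omega)]
      have h2 : ((M : ℕ) : GaussianInt) = (((M : ℕ) : ℤ) : GaussianInt) := by push_cast; rfl
      rw [h2, h1]; push_cast; rfl
    rw [h]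
    exact Dvd.dvd.mul_right hdn _
  obtain ⟨k, hk⟩ : d ∣ (M : GaussianInt) * g + d := dvd_add (Dvd.dvd.mul_right hdM g) dvd_rfl
  have hnorm : ((M : GaussianInt) * g + d).norm = d.norm * k.norm := by
    rw [hk, Zsqrtd.norm_mul]
  -- the norm is large
  have hbig : (K : ℤ) < ((M : GaussianInt) * g + d).norm := by
    rw [gnorm]
    have hd := gnorm d
    have hre : ((M : GaussianInt) * g + d).re = M * g.re + d.re := by simp
    have him : ((M : GaussianInt) * g + d).im = M * g.im + d.im := by simp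
    rw [hre, him]
    have hMK : (2 * (K : ℤ) + 1) ≤ M := by exact_mod_cast hMge
    have hK0 : (0 : ℤ) ≤ K := by positivity
    have b1 : d.re ≤ K := by nlinarith [Int.le_self_sq d.re, sq_nonneg d.im]
    have b2 : -d.re ≤ K := by nlinarith [Int.le_self_sq (-d.re), sq_nonneg d.im]
    have b3 : d.im ≤ K := by nlinarith [Int.le_self_sq d.im, sq_nonneg d.re]
    have b4 : -d.im ≤ K := by nlinarith [Int.le_self_sq (-d.im), sq_nonneg d.re]
    have hg' : g.re ≠ 0 ∨ g.im ≠ 0 := by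
      by_contra hcon
      rw [not_or, not_not, not_not] at hcon
      exact hg (Zsqrtd.ext hcon.1 hcon.2)
    rcases hg' with h | h
    · rcases lt_or_gt_of_ne h with h | h
      · have h1 : (M : ℤ) * g.re + d.re ≤ -(K + 1) := by nlinarith
        nlinarith [sq_nonneg ((M : ℤ) * g.im + d.im)]
      · have h1 : (K : ℤ) + 1 ≤ (M : ℤ) * g.re + d.re := by nlinarith
        nlinarith [sq_nonneg ((M : ℤ) * g.im + d.im)]
    · rcases lt_or_gt_of_ne h with h | h
      · have h1 : (M : ℤ) * g.im + d.im ≤ -(K + 1) := by nlinarith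
        nlinarith [sq_nonneg ((M : ℤ) * g.re + d.re)]
      · have h1 : (K : ℤ) + 1 ≤ (M : ℤ) * g.im + d.im := by nlinarith
        nlinarith [sq_nonneg ((M : ℤ) * g.re + d.re)]
  rcases hp.irreducible.isUnit_or_isUnit hk with hu | hu
  · have h1 : d.norm.natAbs = 1 := Zsqrtd.norm_eq_one_iff.mpr hu
    omega
  · have h1 : k.norm.natAbs = 1 := Zsqrtd.norm_eq_one_iff.mpr hu
    have h3 : 0 ≤ k.norm := Zsqrtd.norm_nonneg (by norm_num) k
    have h4 : k.norm = 1 := by omega
    rw [hnorm, h4] at hbig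
    omega

theorem short_vec (a b : ℝ) (M : ℕ) :
    ∃ u v : ℤ, (u ≠ 0 ∨ v ≠ 0) ∧ 0 ≤ (M : ℝ) * (a * u + b * v) ∧
      (M : ℝ) * (a * u + b * v) ≤ 1 := by
  by_cases hb : b = 0
  · refine ⟨0, 1, Or.inr one_ne_zero, ?_, ?_⟩ <;> simp [hb]
  · obtain ⟨j, k, hk0, -, h⟩ :=
      Real.exists_int_int_abs_mul_sub_le (a / b) (n := ⌈(M : ℝ) * |b|⌉₊ + 1) (by omega)
    have hbpos : 0 < |b| := abs_pos.mpr hb
    have hn : (M : ℝ) * |b| ≤ ((⌈(M : ℝ) * |b|⌉₊ + 1 : ℕ) : ℝ) := by
      push_cast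
      have := Nat.le_ceil ((M : ℝ) * |b|)
      linarith
    have hM0 : (0 : ℝ) ≤ M := by positivity
    have key : |(M : ℝ) * (a * k + b * (-j))| ≤ 1 := by
      have e : (M : ℝ) * (a * k + b * (-j)) = ((M : ℝ) * b) * ((k : ℝ) * (a / b) - j) := by
        field_simp
        ring
      rw [e, abs_mul, abs_mul, abs_of_nonneg hM0]
      have hn0 : (0 : ℝ) < ((⌈(M : ℝ) * |b|⌉₊ + 1 : ℕ) : ℝ) + 1 := by positivity
      calc (M : ℝ) * |b| * |(k : ℝ) * (a / b) - j|
          ≤ (M : ℝ) * |b| * (1 / (((⌈(M : ℝ) * |b|⌉₊ + 1 : ℕ) : ℝ) + 1)) := by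
            apply mul_le_mul_of_nonneg_left h (by positivity)
        _ ≤ 1 := by
            rw [mul_one_div, div_le_one hn0]
            linarith
    rcases le_total 0 ((M : ℝ) * (a * k + b * (-j))) with h0 | h0
    · refine ⟨k, -j, Or.inl hk0.ne', ?_, ?_⟩
      · push_cast; exact h0
      · push_cast; exact (abs_le.mp key).2
    · refine ⟨-k, j, Or.inl (by omega), ?_, ?_⟩
      · push_cast
        have : (M : ℝ) * (a * -(k : ℝ) + b * j) = -((M : ℝ) * (a * k + b * (-j))) := by ring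
        rw [this]; linarith
      · push_cast
        have : (M : ℝ) * (a * -(k : ℝ) + b * j) = -((M : ℝ) * (a * k + b * (-j))) := by ring
        rw [this]; linarith [(abs_le.mp key).1]

theorem approx (a b c : ℝ) (hab : a ≠ 0 ∨ b ≠ 0) (M : ℕ) (hM : 0 < M) (T : ℝ) :
    ∃ u v : ℤ, (u ≠ 0 ∨ v ≠ 0) ∧ |a * ((M : ℝ) * u) + b * ((M : ℝ) * v) - c| ≤ |c| + 1 ∧
      T ≤ -b * ((M : ℝ) * u) + a * ((M : ℝ) * v) := by
  obtain ⟨u1, v1, hne, hδ0, hδ1⟩ := short_vec a b M
  have hMpos : (0 : ℝ) < M := by exact_mod_cast hM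
  have hab2 : 0 < a ^ 2 + b ^ 2 := by
    rcases hab with h | h
    · have := sq_pos_of_ne_zero h; nlinarith [sq_nonneg b]
    · have := sq_pos_of_ne_zero h; nlinarith [sq_nonneg a]
  have huv2 : 0 < (u1 : ℝ) ^ 2 + (v1 : ℝ) ^ 2 := by
    rcases hne with h | h
    · have h' : (u1 : ℝ) ≠ 0 := by exact_mod_cast h
      have := sq_pos_of_ne_zero h'; nlinarith [sq_nonneg (v1 : ℝ)]
    · have h' : (v1 : ℝ) ≠ 0 := by exact_mod_cast h
      have := sq_pos_of_ne_zero h'; nlinarith [sq_nonneg (u1 : ℝ)]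
  generalize hδ : (M : ℝ) * (a * u1 + b * v1) = δ at hδ0 hδ1
  obtain ⟨μ, hμ⟩ : ∃ μ : ℝ, (M : ℝ) * (-b * u1 + a * v1) = μ := ⟨_, rfl⟩
  have hsq : δ ^ 2 + μ ^ 2 = (M : ℝ) ^ 2 * (a ^ 2 + b ^ 2) * ((u1 : ℝ) ^ 2 + (v1 : ℝ) ^ 2) := by
    rw [← hδ, ← hμ]; ring
  have hpos : 0 < δ ^ 2 + μ ^ 2 := by
    rw [hsq]; positivity
  rcases hδ0.eq_or_lt with h0 | h0
  · -- the short vector lies on the direction of the line
    have hμ0 : μ ≠ 0 := by
      intro h
      rw [← h0, h] at hpos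
      simp at hpos
    obtain ⟨J, hJ⟩ := exists_nat_gt (T / |μ|)
    have hμabs : 0 < |μ| := abs_pos.mpr hμ0
    have hJ' : T < J * |μ| := by
      rw [div_lt_iff₀ hμabs] at hJ; exact hJ
    have hJ0 : (0 : ℝ) ≤ J := by positivity
    rcases lt_or_gt_of_ne hμ0 with hneg | hpos'
    · refine ⟨-((J : ℤ) + 1) * u1, -((J : ℤ) + 1) * v1, ?_, ?_, ?_⟩
      · rcases hne with h | h
        · exact Or.inl (mul_ne_zero (by omega) h)
        · exact Or.inr (mul_ne_zero (by omega) h)
      · have e : a * ((M : ℝ) * ((-((J : ℤ) + 1) * u1 : ℤ) : ℝ))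
            + b * ((M : ℝ) * ((-((J : ℤ) + 1) * v1 : ℤ) : ℝ)) = -((J : ℝ) + 1) * δ := by
          rw [← hδ]; push_cast; ring
        rw [e, ← h0]
        simp
      · have e : -b * ((M : ℝ) * ((-((J : ℤ) + 1) * u1 : ℤ) : ℝ))
            + a * ((M : ℝ) * ((-((J : ℤ) + 1) * v1 : ℤ) : ℝ)) = -((J : ℝ) + 1) * μ := by
          rw [← hμ]; push_cast; ring
        rw [e]
        rw [abs_of_neg hneg] at hJ'
        nlinarith
    · refine ⟨((J : ℤ) + 1) * u1, ((J : ℤ) + 1) * v1, ?_, ?_, ?_⟩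
      · rcases hne with h | h
        · exact Or.inl (mul_ne_zero (by omega) h)
        · exact Or.inr (mul_ne_zero (by omega) h)
      · have e : a * ((M : ℝ) * ((((J : ℤ) + 1) * u1 : ℤ) : ℝ))
            + b * ((M : ℝ) * ((((J : ℤ) + 1) * v1 : ℤ) : ℝ)) = ((J : ℝ) + 1) * δ := by
          rw [← hδ]; push_cast; ring
        rw [e, ← h0]
        simp
      · have e : -b * ((M : ℝ) * ((((J : ℤ) + 1) * u1 : ℤ) : ℝ))
            + a * ((M : ℝ) * ((((J : ℤ) + 1) * v1 : ℤ) : ℝ)) = ((J : ℝ) + 1) * μ := by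
          rw [← hμ]; push_cast; ring
        rw [e]
        rw [abs_of_pos hpos'] at hJ'
        nlinarith
  · -- the short vector is transverse to the line
    obtain ⟨J, hJ⟩ := exists_nat_gt ((T + |c * μ| / δ + |μ|) / δ)
    have hJ' : T + |c * μ| / δ + |μ| < J * δ := by
      rw [div_lt_iff₀ h0] at hJ; exact hJ
    obtain ⟨k, hk⟩ : ∃ k : ℤ, k = ⌊(c + ((J : ℝ) + 1) * μ) / δ⌋ := ⟨_, rfl⟩
    have hk1 : (k : ℝ) ≤ (c + ((J : ℝ) + 1) * μ) / δ := by rw [hk]; exact Int.floor_le _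
    have hk2 : (c + ((J : ℝ) + 1) * μ) / δ < k + 1 := by rw [hk]; exact Int.lt_floor_add_one _
    rw [le_div_iff₀ h0] at hk1
    rw [div_lt_iff₀ h0] at hk2
    refine ⟨-((J : ℤ) + 1) * v1 + k * u1, ((J : ℤ) + 1) * u1 + k * v1, ?_, ?_, ?_⟩
    · by_contra hcon
      rw [not_or, not_not, not_not] at hcon
      obtain ⟨e1, e2⟩ := hcon
      have e3 : ((J : ℤ) + 1) * (u1 ^ 2 + v1 ^ 2) = 0 := by
        linear_combination u1 * e2 - v1 * e1
      have e4 : (0 : ℤ) < u1 ^ 2 + v1 ^ 2 := by exact_mod_cast huv2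
      have e5 : (0 : ℤ) < (J : ℤ) + 1 := by positivity
      have := mul_pos e5 e4
      omega
    · have e : a * ((M : ℝ) * ((-((J : ℤ) + 1) * v1 + k * u1 : ℤ) : ℝ))
          + b * ((M : ℝ) * ((((J : ℤ) + 1) * u1 + k * v1 : ℤ) : ℝ))
          = k * δ - ((J : ℝ) + 1) * μ := by
        rw [← hδ, ← hμ]; push_cast; ring
      rw [e, abs_le]
      have : (0 : ℝ) ≤ |c| := abs_nonneg c
      constructor <;> linarith
    · have e : -b * ((M : ℝ) * ((-((J : ℤ) + 1) * v1 + k * u1 : ℤ) : ℝ))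
          + a * ((M : ℝ) * ((((J : ℤ) + 1) * u1 + k * v1 : ℤ) : ℝ))
          = ((J : ℝ) + 1) * δ + k * μ := by
        rw [← hδ, ← hμ]; push_cast; ring
      rw [e]
      -- k μ ≥ ((c + (J+1) μ)/δ) μ - |μ|
      have hJ0 : (0 : ℝ) ≤ J := by positivity
      have hθ : ((c + ((J : ℝ) + 1) * μ) / δ - k) * μ ≤ |μ| := by
        have hθ0 : 0 ≤ (c + ((J : ℝ) + 1) * μ) / δ - k := by
          rw [sub_nonneg, le_div_iff₀ h0]; exact hk1
        have hθ1 : (c + ((J : ℝ) + 1) * μ) / δ - k ≤ 1 := by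
          rw [sub_le_iff_le_add, div_le_iff₀ h0]; linarith
        calc ((c + ((J : ℝ) + 1) * μ) / δ - k) * μ
            ≤ ((c + ((J : ℝ) + 1) * μ) / δ - k) * |μ| :=
              mul_le_mul_of_nonneg_left (le_abs_self μ) hθ0
          _ ≤ 1 * |μ| := mul_le_mul_of_nonneg_right hθ1 (abs_nonneg μ)
          _ = |μ| := one_mul _
      have hx : -(|c * μ| / δ) ≤ (c + ((J : ℝ) + 1) * μ) / δ * μ := by
        have e2 : (c + ((J : ℝ) + 1) * μ) / δ * μ = (c * μ + ((J : ℝ) + 1) * μ ^ 2) / δ := by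
          field_simp
        rw [e2, ← neg_div, div_le_div_iff_of_pos_right h0]
        have := neg_abs_le (c * μ)
        nlinarith [sq_nonneg μ]
      nlinarith

theorem finite_norm_le (N : ℤ) : {p : GaussianInt | p.norm ≤ N}.Finite := by
  have hfin : ((Set.Icc (-N) N ×ˢ Set.Icc (-N) N).image
      (fun q : ℤ × ℤ => (⟨q.1, q.2⟩ : GaussianInt))).Finite :=
    ((Set.finite_Icc (-N) N).prod (Set.finite_Icc (-N) N)).image _
  apply hfin.subset
  intro p hp
  have hp' : p.re ^ 2 + p.im ^ 2 ≤ N := by rw [← gnorm]; exact hp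
  refine ⟨(p.re, p.im), ⟨⟨?_, ?_⟩, ⟨?_, ?_⟩⟩, ?_⟩
  · show -N ≤ p.re
    nlinarith [Int.le_self_sq (-p.re), sq_nonneg p.im]
  · show p.re ≤ N
    nlinarith [Int.le_self_sq p.re, sq_nonneg p.im]
  · show -N ≤ p.im
    nlinarith [Int.le_self_sq (-p.im), sq_nonneg p.re]
  · show p.im ≤ N
    nlinarith [Int.le_self_sq p.im, sq_nonneg p.re]
  · exact Zsqrtd.ext rfl rfl

/-- A lattice point of the strip whose position along the line is at distance between `σ` and
`σ + s` from that of a nonzero multiple `M g` lying near the line is not prime. -/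
theorem strip_block (a b c B σ s : ℝ) (hab : 0 < a ^ 2 + b ^ 2)
    (hσ : a ^ 2 + b ^ 2 < σ ^ 2) (hσ0 : 0 ≤ σ) (K : ℕ)
    (hK : ((B + |c| + 1) ^ 2 + (σ + s) ^ 2) / (a ^ 2 + b ^ 2) ≤ K)
    (u v : ℤ) (p : GaussianInt) (hg : u ≠ 0 ∨ v ≠ 0)
    (hl : |a * ((((2 * K + 1).factorial : ℕ) : ℝ) * u)
      + b * ((((2 * K + 1).factorial : ℕ) : ℝ) * v) - c| ≤ |c| + 1)
    (hp : |a * p.re + b * p.im - c| ≤ B)
    (h1 : σ ≤ |(-b * p.re + a * p.im) - (-b * ((((2 * K + 1).factorial : ℕ) : ℝ) * u)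
      + a * ((((2 * K + 1).factorial : ℕ) : ℝ) * v))|)
    (h2 : |(-b * p.re + a * p.im) - (-b * ((((2 * K + 1).factorial : ℕ) : ℝ) * u)
      + a * ((((2 * K + 1).factorial : ℕ) : ℝ) * v))| ≤ σ + s) : ¬ Prime p := by
  generalize hM : (2 * K + 1).factorial = M at hl h1 h2
  have hB : 0 ≤ B := le_trans (abs_nonneg _) hp
  obtain ⟨d, hd⟩ : ∃ d : GaussianInt, d = p - (M : GaussianInt) * (⟨u, v⟩ : GaussianInt) :=
    ⟨_, rfl⟩
  have hre : (d.re : ℝ) = p.re - (M : ℝ) * u := by
    rw [hd]; simp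
  have him : (d.im : ℝ) = p.im - (M : ℝ) * v := by
    rw [hd]; simp
  have hl2 : |a * d.re + b * d.im| ≤ B + |c| + 1 := by
    have e : a * d.re + b * d.im
        = (a * p.re + b * p.im - c) - (a * ((M : ℝ) * u) + b * ((M : ℝ) * v) - c) := by
      rw [hre, him]; ring
    rw [e]
    calc |(a * p.re + b * p.im - c) - (a * ((M : ℝ) * u) + b * ((M : ℝ) * v) - c)|
        ≤ |a * p.re + b * p.im - c| + |a * ((M : ℝ) * u) + b * ((M : ℝ) * v) - c| :=
          abs_sub _ _
      _ ≤ B + (|c| + 1) := add_le_add hp hl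
      _ = B + |c| + 1 := by ring
  have hm2 : -b * d.re + a * d.im
      = (-b * p.re + a * p.im) - (-b * ((M : ℝ) * u) + a * ((M : ℝ) * v)) := by
    rw [hre, him]; ring
  rw [← hm2] at h1 h2
  have hid : (a * d.re + b * d.im) ^ 2 + (-b * d.re + a * d.im) ^ 2
      = (a ^ 2 + b ^ 2) * (d.norm : ℝ) := by
    rw [gnorm]; push_cast; ring
  have hsq1 : σ ^ 2 ≤ (-b * d.re + a * d.im) ^ 2 := by
    rw [← sq_abs (-b * d.re + a * d.im)]
    exact pow_le_pow_left₀ hσ0 h1 2
  have hsq2 : (-b * d.re + a * d.im) ^ 2 ≤ (σ + s) ^ 2 := by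
    rw [← sq_abs (-b * d.re + a * d.im)]
    exact pow_le_pow_left₀ (abs_nonneg _) h2 2
  have hsq3 : (a * d.re + b * d.im) ^ 2 ≤ (B + |c| + 1) ^ 2 := by
    rw [← sq_abs (a * d.re + b * d.im)]
    exact pow_le_pow_left₀ (abs_nonneg _) hl2 2
  have hn2 : 2 ≤ d.norm := by
    have h : (1 : ℝ) < (d.norm : ℝ) := by
      by_contra hcon
      rw [not_lt] at hcon
      nlinarith [sq_nonneg (a * d.re + b * d.im)]
    have h' : (1 : ℤ) < d.norm := by exact_mod_cast h
    omega
  have hnK : d.norm ≤ K := by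
    have h : (d.norm : ℝ) ≤ (K : ℝ) := by
      refine le_trans ?_ hK
      rw [le_div_iff₀ hab]
      nlinarith
    exact_mod_cast h
  have hg' : (⟨u, v⟩ : GaussianInt) ≠ 0 := by
    intro h
    have h1 := congrArg Zsqrtd.re h
    have h2 := congrArg Zsqrtd.im h
    simp at h1 h2
    rcases hg with h | h
    · exact h h1
    · exact h h2
  have hbl := block K ⟨u, v⟩ d hg' hn2 hnK
  rw [hM] at hbl
  have e : (M : GaussianInt) * (⟨u, v⟩ : GaussianInt) + d = p := by rw [hd]; ring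
  rw [e] at hbl
  exact hbl

/-- A sequence of Gaussian primes with bounded steps that stays in a strip of bounded width
around a real line takes only finitely many values. -/
theorem strip_walk_finite (z : ℕ → GaussianInt) (D : ℕ) (a b c B : ℝ) (hab : a ≠ 0 ∨ b ≠ 0)
    (hprime : ∀ n, Prime (z n))
    (hstep : ∀ n, Zsqrtd.norm (z (n + 1) - z n) ≤ D)
    (hstrip : ∀ n, |a * (z n).re + b * (z n).im - c| ≤ B) : (Set.range z).Finite := by
  have hρ : 0 < a ^ 2 + b ^ 2 := by
    rcases hab with h | h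
    · have := sq_pos_of_ne_zero h; nlinarith [sq_nonneg b]
    · have := sq_pos_of_ne_zero h; nlinarith [sq_nonneg a]
  have hB : 0 ≤ B := le_trans (abs_nonneg _) (hstrip 0)
  have ha0 : 0 ≤ |a| := abs_nonneg a
  have hb0 : 0 ≤ |b| := abs_nonneg b
  have hD0 : (0 : ℝ) ≤ D := by positivity
  obtain ⟨σ, hσdef⟩ : ∃ σ : ℝ, σ = |a| + |b| + 1 := ⟨_, rfl⟩
  obtain ⟨s, hsdef⟩ : ∃ s : ℝ, s = (|a| + |b|) * D := ⟨_, rfl⟩
  have hσ0 : 0 ≤ σ := by rw [hσdef]; positivity
  have hσpos : 0 < σ := by rw [hσdef]; positivity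
  have hs0 : 0 ≤ s := by rw [hsdef]; positivity
  have hσ2 : a ^ 2 + b ^ 2 < σ ^ 2 := by
    rw [hσdef]
    nlinarith [sq_abs a, sq_abs b, mul_nonneg ha0 hb0]
  obtain ⟨K, hK⟩ := exists_nat_ge (((B + |c| + 1) ^ 2 + (σ + s) ^ 2) / (a ^ 2 + b ^ 2))
  have hMpos : 0 < (2 * K + 1).factorial := Nat.factorial_pos _
  -- the position of a point along the line changes by at most `s` in one step
  have hstepm : ∀ n, |(-b * (z (n + 1)).re + a * (z (n + 1)).im)
      - (-b * (z n).re + a * (z n).im)| ≤ s := by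
    intro n
    have h := hstep n
    rw [gnorm] at h
    simp only [Zsqrtd.re_sub, Zsqrtd.im_sub] at h
    have h1 : |(((z (n + 1)).re : ℝ) - (z n).re)| ≤ D := by
      have h1a : ((z (n + 1)).re - (z n).re) ≤ (D : ℤ) := by
        nlinarith [Int.le_self_sq ((z (n + 1)).re - (z n).re),
          sq_nonneg ((z (n + 1)).im - (z n).im)]
      have h1b : -((z (n + 1)).re - (z n).re) ≤ (D : ℤ) := by
        nlinarith [Int.le_self_sq (-((z (n + 1)).re - (z n).re)),
          sq_nonneg ((z (n + 1)).im - (z n).im)]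
      rw [abs_le]
      constructor
      · have : (-(D : ℤ) : ℝ) ≤ (((z (n + 1)).re - (z n).re : ℤ) : ℝ) := by
          exact_mod_cast (by omega : -(D : ℤ) ≤ (z (n + 1)).re - (z n).re)
        push_cast at this; linarith
      · have : (((z (n + 1)).re - (z n).re : ℤ) : ℝ) ≤ ((D : ℤ) : ℝ) := by
          exact_mod_cast h1a
        push_cast at this; linarith
    have h2 : |(((z (n + 1)).im : ℝ) - (z n).im)| ≤ D := by
      have h2a : ((z (n + 1)).im - (z n).im) ≤ (D : ℤ) := by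
        nlinarith [Int.le_self_sq ((z (n + 1)).im - (z n).im),
          sq_nonneg ((z (n + 1)).re - (z n).re)]
      have h2b : -((z (n + 1)).im - (z n).im) ≤ (D : ℤ) := by
        nlinarith [Int.le_self_sq (-((z (n + 1)).im - (z n).im)),
          sq_nonneg ((z (n + 1)).re - (z n).re)]
      rw [abs_le]
      constructor
      · have : (-(D : ℤ) : ℝ) ≤ (((z (n + 1)).im - (z n).im : ℤ) : ℝ) := by
          exact_mod_cast (by omega : -(D : ℤ) ≤ (z (n + 1)).im - (z n).im)
        push_cast at this; linarith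
      · have : (((z (n + 1)).im - (z n).im : ℤ) : ℝ) ≤ ((D : ℤ) : ℝ) := by
          exact_mod_cast h2a
        push_cast at this; linarith
    have e : (-b * (z (n + 1)).re + a * (z (n + 1)).im) - (-b * (z n).re + a * (z n).im)
        = -b * (((z (n + 1)).re : ℝ) - (z n).re) + a * (((z (n + 1)).im : ℝ) - (z n).im) := by
      ring
    rw [e, hsdef]
    calc |-b * (((z (n + 1)).re : ℝ) - (z n).re) + a * (((z (n + 1)).im : ℝ) - (z n).im)|
        ≤ |-b * (((z (n + 1)).re : ℝ) - (z n).re)| + |a * (((z (n + 1)).im : ℝ) - (z n).im)| :=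
          abs_add_le _ _
      _ = |b| * |(((z (n + 1)).re : ℝ) - (z n).re)| + |a| * |(((z (n + 1)).im : ℝ) - (z n).im)| := by
          rw [abs_mul, abs_mul, abs_neg]
      _ ≤ |b| * D + |a| * D :=
          add_le_add (mul_le_mul_of_nonneg_left h1 hb0) (mul_le_mul_of_nonneg_left h2 ha0)
      _ = (|a| + |b|) * D := by ring
  -- blocking points ahead and behind
  obtain ⟨u, v, hg, hl, hm⟩ :=
    approx a b c hab _ hMpos ((-b * (z 0).re + a * (z 0).im) + 1)
  obtain ⟨u', v', hg', hl', hm'⟩ :=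
    approx (-a) (-b) (-c) (by simpa using hab) _ hMpos (-(-b * (z 0).re + a * (z 0).im) + 1)
  generalize hM : (((2 * K + 1).factorial : ℕ) : ℝ) = M at hl hm hl' hm'
  have hl'' : |a * (M * u') + b * (M * v') - c| ≤ |c| + 1 := by
    have e : a * (M * u') + b * (M * v') - c = -(-a * (M * u') + -b * (M * v') - -c) := by ring
    rw [e, abs_neg]
    rw [abs_neg] at hl'
    exact hl'
  have hinv : ∀ n, (-b * (M * u') + a * (M * v')) - σ < (-b * (z n).re + a * (z n).im)
      ∧ (-b * (z n).re + a * (z n).im) < (-b * (M * u) + a * (M * v)) + σ := by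
    intro n
    induction n with
    | zero => constructor <;> linarith
    | succ n ih =>
      have hsn := abs_le.mp (hstepm n)
      constructor
      · by_contra hcon
        rw [not_lt] at hcon
        refine strip_block a b c B σ s hρ hσ2 hσ0 K hK u' v' (z (n + 1)) hg' ?_ (hstrip (n + 1))
          ?_ ?_ (hprime (n + 1))
        · rw [hM]; exact hl''
        · rw [hM, abs_of_nonpos (by linarith)]; linarith
        · rw [hM, abs_of_nonpos (by linarith)]; linarith [ih.1]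
      · by_contra hcon
        rw [not_lt] at hcon
        refine strip_block a b c B σ s hρ hσ2 hσ0 K hK u v (z (n + 1)) hg ?_ (hstrip (n + 1))
          ?_ ?_ (hprime (n + 1))
        · rw [hM]; exact hl
        · rw [hM, abs_of_nonneg (by linarith)]; linarith
        · rw [hM, abs_of_nonneg (by linarith)]; linarith [ih.2]
  -- hence the walk is bounded
  obtain ⟨N, hN⟩ := exists_nat_ge (((|c| + B) ^ 2
    + (|(-b * (M * u') + a * (M * v'))| + |(-b * (M * u) + a * (M * v))| + σ) ^ 2) / (a ^ 2 + b ^ 2))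
  have hsub : Set.range z ⊆ {p : GaussianInt | p.norm ≤ (N : ℤ)} := by
    rintro _ ⟨n, rfl⟩
    show (z n).norm ≤ (N : ℤ)
    have hid : (a * (z n).re + b * (z n).im) ^ 2 + (-b * (z n).re + a * (z n).im) ^ 2
        = (a ^ 2 + b ^ 2) * ((z n).norm : ℝ) := by
      rw [gnorm]; push_cast; ring
    have h1 : |a * (z n).re + b * (z n).im| ≤ |c| + B := by
      have e : a * (z n).re + b * (z n).im = c + (a * (z n).re + b * (z n).im - c) := by ring
      rw [e]
      exact le_trans (abs_add_le _ _) (add_le_add le_rfl (hstrip n))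
    have h2 : |(-b * (z n).re + a * (z n).im)|
        ≤ |(-b * (M * u') + a * (M * v'))| + |(-b * (M * u) + a * (M * v))| + σ := by
      obtain ⟨i1, i2⟩ := hinv n
      have j1 := neg_abs_le (-b * (M * u') + a * (M * v'))
      have j2 := le_abs_self (-b * (M * u) + a * (M * v))
      have j3 := abs_nonneg (-b * (M * u') + a * (M * v'))
      have j4 := abs_nonneg (-b * (M * u) + a * (M * v))
      rw [abs_le]
      constructor <;> linarith
    have h3 : (a * (z n).re + b * (z n).im) ^ 2 ≤ (|c| + B) ^ 2 := by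
      rw [← sq_abs (a * (z n).re + b * (z n).im)]
      exact pow_le_pow_left₀ (abs_nonneg _) h1 2
    have h4 : (-b * (z n).re + a * (z n).im) ^ 2
        ≤ (|(-b * (M * u') + a * (M * v'))| + |(-b * (M * u) + a * (M * v))| + σ) ^ 2 := by
      rw [← sq_abs (-b * (z n).re + a * (z n).im)]
      exact pow_le_pow_left₀ (abs_nonneg _) h2 2
    have h5 : ((z n).norm : ℝ) ≤ (N : ℝ) := by
      refine le_trans ?_ hN
      rw [le_div_iff₀ hρ]
      nlinarith
    exact_mod_cast h5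
  exact (finite_norm_le N).subset hsub

/-- No infinite sequence of distinct Gaussian primes with bounded steps stays in a strip of
bounded width around a real line. -/
theorem no_strip_walk (z : ℕ → GaussianInt) (D : ℕ) (a b c B : ℝ) (hab : a ≠ 0 ∨ b ≠ 0)
    (hinj : Function.Injective z) (hprime : ∀ n, Prime (z n))
    (hstep : ∀ n, Zsqrtd.norm (z (n + 1) - z n) ≤ D)
    (hstrip : ∀ n, |a * (z n).re + b * (z n).im - c| ≤ B) : False :=
  Set.infinite_range_of_injective hinj (strip_walk_finite z D a b c B hab hprime hstep hstrip)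

end Vale.Agent.H4
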