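import Mathlib

/-!
# A verified column sweep for directed walks on sieved Gaussian integers

Cells are the integer points `(a, b)` with `a + b = 2u + 1`; the column index is `u` and the
position inside the column is `a`.  A cell is open if `a^2 + b^2` is divisible by none of
`3, 5, 13, 17, 29`.  The sweep computes, column after column, a bit mask containing every open
cell that can be reached from the first two columns by steps that increase `u` by one or two and
`a` by one of the listed amounts.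
-/

namespace Vale.Agent.H4

/-- Residue test: for the cell of column `u` whose first coordinate is congruent to `r`
modulo `p`, is `a^2+b^2` nonzero modulo `p`? -/
def okc (p u r : ℕ) : Bool := (r * r + (r + (p - (2 * u + 1) % p)) ^ 2) % p != 0

/-- Bits `r < k` of the base pattern of the prime `p` in column `u`. -/
def basePat (p u : ℕ) : ℕ → ℕ
  | 0 => 0
  | k + 1 => basePat p u k ||| (if okc p u k then 2 ^ k else 0)

/-- Periodic extension by repeated doubling: `dbl p x n` repeats the `p`-bit pattern `x`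
`2^n` times. -/
def dbl (p x : ℕ) : ℕ → ℕ
  | 0 => x
  | n + 1 => dbl p x n ||| (dbl p x n <<< (p * 2 ^ n))

/-- The mask of open cells of column `u` (bit `a` for the cell `(a, 2u+1-a)`). -/
def colMask (u : ℕ) : ℕ :=
  dbl 3 (basePat 3 u 3) 16 &&& dbl 5 (basePat 5 u 5) 15 &&& dbl 13 (basePat 13 u 13) 13 &&&
    dbl 17 (basePat 17 u 17) 13 &&& dbl 29 (basePat 29 u 29) 12

/-- Union of the left shifts of `R` by the amounts in the list. -/
def orShifts (R : ℕ) : List ℕ → ℕ
  | [] => 0
  | d :: l => (R <<< d) ||| orShifts R l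

/-- The mask of column `u` computed from the masks of the two previous columns. -/
def nextCol (s1 s2 : List ℕ) (u R1 R2 : ℕ) : ℕ :=
  colMask u &&& (orShifts R1 s1 ||| orShifts R2 s2)

/-- Runs the sweep; returns `true` as soon as two consecutive columns are empty. -/
def sweep (s1 s2 : List ℕ) : ℕ → ℕ → ℕ → ℕ → Bool
  | 0, _, _, _ => false
  | fuel + 1, u, R1, R2 =>
      if (Nat.beq R1 0 && Nat.beq R2 0) then true
      else sweep s1 s2 fuel (u + 1) (nextCol s1 s2 u R1 R2) R1

/-- The sweep started from the two full columns `0` and `1`. -/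
def check (s1 s2 : List ℕ) (L : ℕ) : Bool := sweep s1 s2 L 2 (colMask 1) (colMask 0)

/-- The sequence of column masks computed by the sweep. -/
def rseq (s1 s2 : List ℕ) : ℕ → ℕ
  | 0 => colMask 0
  | 1 => colMask 1
  | u + 2 => nextCol s1 s2 (u + 2) (rseq s1 s2 (u + 1)) (rseq s1 s2 u)

theorem testBit_basePat (p u : ℕ) :
    ∀ k r, r < k → okc p u r = true → (basePat p u k).testBit r = true := by
  intro k
  induction k with
  | zero => intro r hr; omega
  | succ k ih =>
    intro r hr hok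
    simp only [basePat, Nat.testBit_or, Bool.or_eq_true]
    rcases Nat.lt_succ_iff_lt_or_eq.mp hr with h | h
    · exact Or.inl (ih r h hok)
    · subst h
      right
      simp [hok]

theorem testBit_dbl (p x : ℕ) :
    ∀ n i, i < p * 2 ^ n → x.testBit (i % p) = true → (dbl p x n).testBit i = true := by
  intro n
  induction n with
  | zero =>
    intro i hi h
    have : i % p = i := Nat.mod_eq_of_lt (by simpa using hi)
    simpa [dbl, this] using h
  | succ n ih =>
    intro i hi h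
    simp only [dbl, Nat.testBit_or, Bool.or_eq_true, Nat.testBit_shiftLeft, Bool.and_eq_true,
      decide_eq_true_eq]
    by_cases hlt : i < p * 2 ^ n
    · exact Or.inl (ih i hlt h)
    · right
      have hge : p * 2 ^ n ≤ i := not_lt.mp hlt
      refine ⟨hge, ih (i - p * 2 ^ n) ?_ ?_⟩
      · have : p * 2 ^ (n + 1) = p * 2 ^ n + p * 2 ^ n := by ring
        omega
      · rw [Nat.sub_mul_mod hge]; exact h

theorem testBit_colMask (u v : ℕ) (hv : v < 100000)
    (h3 : okc 3 u (v % 3) = true) (h5 : okc 5 u (v % 5) = true)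
    (h13 : okc 13 u (v % 13) = true) (h17 : okc 17 u (v % 17) = true)
    (h29 : okc 29 u (v % 29) = true) : (colMask u).testBit v = true := by
  simp only [colMask, Nat.testBit_and, Bool.and_eq_true]
  refine ⟨⟨⟨⟨?_, ?_⟩, ?_⟩, ?_⟩, ?_⟩
  · exact testBit_dbl 3 _ 16 v (by norm_num; omega)
      (testBit_basePat 3 u 3 _ (Nat.mod_lt _ (by norm_num)) h3)
  · exact testBit_dbl 5 _ 15 v (by norm_num; omega)
      (testBit_basePat 5 u 5 _ (Nat.mod_lt _ (by norm_num)) h5)
  · exact testBit_dbl 13 _ 13 v (by norm_num; omega)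
      (testBit_basePat 13 u 13 _ (Nat.mod_lt _ (by norm_num)) h13)
  · exact testBit_dbl 17 _ 13 v (by norm_num; omega)
      (testBit_basePat 17 u 17 _ (Nat.mod_lt _ (by norm_num)) h17)
  · exact testBit_dbl 29 _ 12 v (by norm_num; omega)
      (testBit_basePat 29 u 29 _ (Nat.mod_lt _ (by norm_num)) h29)

theorem testBit_orShifts (R : ℕ) (l : List ℕ) (d v : ℕ) (hd : d ∈ l)
    (h : R.testBit v = true) : (orShifts R l).testBit (v + d) = true := by
  induction l with
  | nil => simp at hd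
  | cons e l ih =>
    simp only [orShifts, Nat.testBit_or, Bool.or_eq_true, Nat.testBit_shiftLeft,
      Bool.and_eq_true, decide_eq_true_eq]
    rcases List.mem_cons.mp hd with rfl | hmem
    · left
      refine ⟨by omega, ?_⟩
      have : v + d - d = v := by omega
      rw [this]; exact h
    · exact Or.inr (ih hmem)

theorem sweep_spec (s1 s2 : List ℕ) :
    ∀ fuel u, sweep s1 s2 fuel (u + 2) (rseq s1 s2 (u + 1)) (rseq s1 s2 u) = true →
      ∃ k, k ≤ u + fuel ∧ rseq s1 s2 k = 0 ∧ rseq s1 s2 (k + 1) = 0 := by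
  intro fuel
  induction fuel with
  | zero => intro u h; simp [sweep] at h
  | succ fuel ih =>
    intro u h
    unfold sweep at h
    by_cases hz : (Nat.beq (rseq s1 s2 (u + 1)) 0 && Nat.beq (rseq s1 s2 u) 0) = true
    · simp only [Bool.and_eq_true, Nat.beq_eq] at hz
      exact ⟨u, by omega, hz.2, hz.1⟩
    · rw [if_neg hz] at h
      obtain ⟨k, hk, h0, h1⟩ := ih (u + 1) h
      exact ⟨k, by omega, h0, h1⟩

/-- Walks with natural coordinates: if the sweep finds two consecutive empty columns, no infinite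
walk of open cells starts in the first two columns. -/
theorem no_nat_walk (s1 s2 : List ℕ) (L : ℕ) (hchk : check s1 s2 L = true) (hL : L ≤ 1000)
    (hs1 : ∀ d ∈ s1, d ≤ 3) (hs2 : ∀ d ∈ s2, d ≤ 3)
    (U A : ℕ → ℕ) (hU0 : U 0 ≤ 1) (hA0 : A 0 < 96135)
    (hopen : ∀ n, okc 3 (U n) (A n % 3) = true ∧ okc 5 (U n) (A n % 5) = true ∧
      okc 13 (U n) (A n % 13) = true ∧ okc 17 (U n) (A n % 17) = true ∧
      okc 29 (U n) (A n % 29) = true)
    (hstep : ∀ n, (U (n + 1) = U n + 1 ∧ ∃ d ∈ s1, A (n + 1) = A n + d) ∨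
      (U (n + 1) = U n + 2 ∧ ∃ d ∈ s2, A (n + 1) = A n + d)) : False := by
  obtain ⟨k, hk, hk0, hk1⟩ := sweep_spec s1 s2 L 0 hchk
  have hUn : ∀ n, n ≤ U n := by
    intro n
    induction n with
    | zero => omega
    | succ n ih => rcases hstep n with ⟨h, _⟩ | ⟨h, _⟩ <;> omega
  have hAn : ∀ n, A n ≤ A 0 + 3 * n := by
    intro n
    induction n with
    | zero => omega
    | succ n ih =>
      rcases hstep n with ⟨_, d, hd, h⟩ | ⟨_, d, hd, h⟩
      · have := hs1 d hd; omega
      · have := hs2 d hd; omega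
  have hcol : ∀ n, U n ≤ k + 1 → (colMask (U n)).testBit (A n) = true := by
    intro n hn
    obtain ⟨h3, h5, h13, h17, h29⟩ := hopen n
    have h1 := hUn n
    have h2 := hAn n
    exact testBit_colMask (U n) (A n) (by omega) h3 h5 h13 h17 h29
  have hinv : ∀ n, U n ≤ k + 1 → (rseq s1 s2 (U n)).testBit (A n) = true := by
    intro n
    induction n with
    | zero =>
      intro h0
      have hc := hcol 0 h0
      rcases Nat.le_one_iff_eq_zero_or_eq_one.mp hU0 with h | h
      · rw [h] at hc ⊢; exact hc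
      · rw [h] at hc ⊢; exact hc
    | succ n ih =>
      intro hn1
      have hc := hcol (n + 1) hn1
      rcases hstep n with ⟨hu, d, hd, ha⟩ | ⟨hu, d, hd, ha⟩
      · have ihn := ih (by omega)
        rcases Nat.eq_zero_or_pos (U n) with hz | hpos
        · have h1 : U (n + 1) = 1 := by omega
          rw [h1] at hc ⊢; exact hc
        · obtain ⟨w, hw⟩ : ∃ w, U n = w + 1 := ⟨U n - 1, by omega⟩
          have h2 : U (n + 1) = w + 2 := by omega
          rw [h2] at hc ⊢
          rw [hw] at ihn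
          simp only [rseq, nextCol, Nat.testBit_and, Nat.testBit_or, Bool.and_eq_true,
            Bool.or_eq_true]
          refine ⟨hc, Or.inl ?_⟩
          rw [ha]
          exact testBit_orShifts _ s1 d (A n) hd ihn
      · have ihn := ih (by omega)
        rw [hu] at hc ⊢
        simp only [rseq, nextCol, Nat.testBit_and, Nat.testBit_or, Bool.and_eq_true,
          Bool.or_eq_true]
        refine ⟨hc, Or.inr ?_⟩
        rw [ha]
        exact testBit_orShifts _ s2 d (A n) hd ihn
  have hex : ∃ n, k ≤ U n := ⟨k, hUn k⟩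
  classical
  have hfind := Nat.find_spec hex
  have hhit : U (Nat.find hex) = k ∨ U (Nat.find hex) = k + 1 := by
    rcases Nat.eq_zero_or_pos (Nat.find hex) with hz | hpos
    · rw [hz] at hfind ⊢; omega
    · obtain ⟨j, hj⟩ : ∃ j, Nat.find hex = j + 1 := ⟨Nat.find hex - 1, by omega⟩
      have hmin := Nat.find_min hex (m := j) (by omega)
      rw [hj] at hfind ⊢
      rcases hstep j with ⟨h, _⟩ | ⟨h, _⟩ <;> omega
  rcases hhit with hn | hn
  · have h := hinv (Nat.find hex) (by omega)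
    rw [hn, hk0] at h
    simp at h
  · have h := hinv (Nat.find hex) (by omega)
    rw [hn, hk1] at h
    simp at h

theorem okc_of_not_dvd (p u v : ℕ) (hp : 0 < p)
    (h : ¬ (p : ℤ) ∣ (v : ℤ) ^ 2 + (2 * (u : ℤ) + 1 - v) ^ 2) : okc p u (v % p) = true := by
  unfold okc
  by_contra hne
  apply h
  have h0 : (v % p * (v % p) + (v % p + (p - (2 * u + 1) % p)) ^ 2) % p = 0 := by
    simpa using hne
  have hdvd : (p : ℤ) ∣ ((v % p * (v % p) + (v % p + (p - (2 * u + 1) % p)) ^ 2 : ℕ) : ℤ) := by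
    exact_mod_cast Nat.dvd_of_mod_eq_zero h0
  have hc : (2 * u + 1) % p ≤ p := (Nat.mod_lt _ hp).le
  push_cast [Nat.cast_sub hc] at hdvd
  have e1 : ((v : ℤ) % p) ≡ v [ZMOD p] := Int.mod_modEq _ _
  have e2 : ((2 * (u : ℤ) + 1) % p) ≡ 2 * u + 1 [ZMOD p] := Int.mod_modEq _ _
  have e3 : (p : ℤ) ≡ 0 [ZMOD p] := by simp [Int.ModEq]
  have key : ((v : ℤ) % p) * ((v : ℤ) % p) + ((v : ℤ) % p + ((p : ℤ) - (2 * (u : ℤ) + 1) % p)) ^ 2
      ≡ (v : ℤ) ^ 2 + (2 * (u : ℤ) + 1 - v) ^ 2 [ZMOD p] := by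
    have h1 := (e1.mul e1).add ((e1.add (e3.sub e2)).pow 2)
    have h2 : (v : ℤ) * v + (v + (0 - (2 * (u : ℤ) + 1))) ^ 2
        = (v : ℤ) ^ 2 + (2 * (u : ℤ) + 1 - v) ^ 2 := by ring
    rw [h2] at h1
    exact h1
  exact Int.modEq_zero_iff_dvd.mp (key.symm.trans (Int.modEq_zero_iff_dvd.mpr hdvd))

/-- Open cells: `a^2+b^2` is divisible by none of `3, 5, 13, 17, 29`. -/
def Opn (a b : ℤ) : Prop :=
  ¬ (3 : ℤ) ∣ a ^ 2 + b ^ 2 ∧ ¬ (5 : ℤ) ∣ a ^ 2 + b ^ 2 ∧ ¬ (13 : ℤ) ∣ a ^ 2 + b ^ 2 ∧
    ¬ (17 : ℤ) ∣ a ^ 2 + b ^ 2 ∧ ¬ (29 : ℤ) ∣ a ^ 2 + b ^ 2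

theorem not_dvd_shift (p : ℤ) (hp : p ∣ 96135) (a b s t : ℤ) (h : ¬ p ∣ a ^ 2 + b ^ 2) :
    ¬ p ∣ (a - 96135 * s) ^ 2 + (b - 96135 * t) ^ 2 := by
  intro hd
  apply h
  have h1 : a ^ 2 + b ^ 2 = (a - 96135 * s) ^ 2 + (b - 96135 * t) ^ 2
      + 96135 * (2 * a * s + 2 * b * t - 96135 * s ^ 2 - 96135 * t ^ 2) := by ring
  rw [h1]
  exact dvd_add hd (Dvd.dvd.mul_right hp _)

/-- An integer sequence that starts at most at `T + 1` and increases by one or two at each step
takes the value `T` or `T + 1`. -/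
theorem hit_band (f : ℕ → ℤ) (hf : ∀ n, f (n + 1) = f n + 1 ∨ f (n + 1) = f n + 2) (T : ℤ)
    (hT : f 0 ≤ T + 1) : ∃ n, f n = T ∨ f n = T + 1 := by
  have hgrow : ∀ n, f 0 + n ≤ f n := by
    intro n
    induction n with
    | zero => simp
    | succ n ih => rcases hf n with h | h <;> push_cast <;> omega
  have hex : ∃ n, T ≤ f n := ⟨(T - f 0).toNat, by have := hgrow (T - f 0).toNat; omega⟩
  classical
  have hfind := Nat.find_spec hex
  refine ⟨Nat.find hex, ?_⟩
  rcases Nat.eq_zero_or_pos (Nat.find hex) with hz | hpos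
  · rw [hz] at hfind ⊢; omega
  · obtain ⟨j, hj⟩ : ∃ j, Nat.find hex = j + 1 := ⟨Nat.find hex - 1, by omega⟩
    have hmin := Nat.find_min hex (m := j) (by omega)
    rw [hj] at hfind ⊢
    rcases hf j with h | h <;> omega

/-- Walks with integer coordinates: if the sweep finds two consecutive empty columns, there is no
infinite walk through open cells of odd coordinate sum whose steps `(d, 2 - d)` and `(d, 4 - d)`
have `d` in the lists `s1` and `s2` respectively. -/
theorem no_int_walk (s1 s2 : List ℕ) (L : ℕ) (hchk : check s1 s2 L = true) (hL : L ≤ 1000)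
    (hs1 : ∀ d ∈ s1, d ≤ 3) (hs2 : ∀ d ∈ s2, d ≤ 3)
    (a b : ℕ → ℤ) (hodd : (a 0 + b 0) % 2 = 1) (hopen : ∀ n, Opn (a n) (b n))
    (hstep : ∀ n, (∃ d ∈ s1, a (n + 1) = a n + (d : ℕ) ∧ b (n + 1) = b n + 2 - (d : ℕ)) ∨
      (∃ d ∈ s2, a (n + 1) = a n + (d : ℕ) ∧ b (n + 1) = b n + 4 - (d : ℕ))) : False := by
  have hsig : ∀ n, a (n + 1) + b (n + 1) = a n + b n + 2 ∨
      a (n + 1) + b (n + 1) = a n + b n + 4 := by
    intro n
    rcases hstep n with ⟨d, _, h1, h2⟩ | ⟨d, _, h1, h2⟩
    · left; omega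
    · right; omega
  have hoddn : ∀ n, (a n + b n) % 2 = 1 := by
    intro n
    induction n with
    | zero => exact hodd
    | succ n ih => rcases hsig n with h | h <;> omega
  have hf : ∀ n, (a (n + 1) + b (n + 1) - 1) / 2 = (a n + b n - 1) / 2 + 1 ∨
      (a (n + 1) + b (n + 1) - 1) / 2 = (a n + b n - 1) / 2 + 2 := by
    intro n
    have := hoddn n
    rcases hsig n with h | h
    · left; omega
    · right; omega
  obtain ⟨n0, hn0⟩ := hit_band (fun n => (a n + b n - 1) / 2) hf
    (96135 * ((a 0 + b 0 - 1) / 2 / 96135 + 1)) (by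
      show (a 0 + b 0 - 1) / 2 ≤ 96135 * ((a 0 + b 0 - 1) / 2 / 96135 + 1) + 1
      omega)
  have hn0' : (a n0 + b n0 - 1) / 2 = 96135 * ((a 0 + b 0 - 1) / 2 / 96135 + 1) ∨
      (a n0 + b n0 - 1) / 2 = 96135 * ((a 0 + b 0 - 1) / 2 / 96135 + 1) + 1 := hn0
  clear hn0
  set K : ℤ := (a 0 + b 0 - 1) / 2 / 96135 + 1 with hK
  set s : ℤ := a n0 / 96135 with hs
  -- monotonicity of the first coordinate and of the column index
  have hamono : ∀ j, a n0 ≤ a (n0 + j) := by
    intro j
    induction j with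
    | zero => simp
    | succ j ih =>
      have : n0 + (j + 1) = (n0 + j) + 1 := by ring
      rw [this]
      rcases hstep (n0 + j) with ⟨d, _, h1, _⟩ | ⟨d, _, h1, _⟩ <;> omega
  have hfmono : ∀ j, (a n0 + b n0 - 1) / 2 ≤ (a (n0 + j) + b (n0 + j) - 1) / 2 := by
    intro j
    induction j with
    | zero => simp
    | succ j ih =>
      have : n0 + (j + 1) = (n0 + j) + 1 := by ring
      rw [this]
      rcases hf (n0 + j) with h | h <;> omega
  have hs0 : 0 ≤ a n0 - 96135 * s ∧ a n0 - 96135 * s < 96135 := by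
    omega
  refine no_nat_walk s1 s2 L hchk hL hs1 hs2
    (fun j => ((a (n0 + j) + b (n0 + j) - 1) / 2 - 96135 * K).toNat)
    (fun j => (a (n0 + j) - 96135 * s).toNat) ?_ ?_ ?_ ?_
  · simp only [Nat.add_zero]
    omega
  · simp only [Nat.add_zero]
    omega
  · intro j
    have ha := hamono j
    have hfj := hfmono j
    have hoj := hoddn (n0 + j)
    obtain ⟨o3, o5, o13, o17, o29⟩ := hopen (n0 + j)
    have hA : (((a (n0 + j) - 96135 * s).toNat : ℕ) : ℤ) = a (n0 + j) - 96135 * s :=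
      Int.toNat_of_nonneg (by omega)
    have hU : ((((a (n0 + j) + b (n0 + j) - 1) / 2 - 96135 * K).toNat : ℕ) : ℤ)
        = (a (n0 + j) + b (n0 + j) - 1) / 2 - 96135 * K := Int.toNat_of_nonneg (by omega)
    have hb : 2 * ((((a (n0 + j) + b (n0 + j) - 1) / 2 - 96135 * K).toNat : ℕ) : ℤ) + 1
        - (((a (n0 + j) - 96135 * s).toNat : ℕ) : ℤ) = b (n0 + j) - 96135 * (2 * K - s) := by
      rw [hA, hU]; omega
    refine ⟨?_, ?_, ?_, ?_, ?_⟩
    · apply okc_of_not_dvd 3 _ _ (by norm_num)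
      rw [hb, hA]
      exact_mod_cast not_dvd_shift 3 (by norm_num) _ _ _ _ o3
    · apply okc_of_not_dvd 5 _ _ (by norm_num)
      rw [hb, hA]
      exact_mod_cast not_dvd_shift 5 (by norm_num) _ _ _ _ o5
    · apply okc_of_not_dvd 13 _ _ (by norm_num)
      rw [hb, hA]
      exact_mod_cast not_dvd_shift 13 (by norm_num) _ _ _ _ o13
    · apply okc_of_not_dvd 17 _ _ (by norm_num)
      rw [hb, hA]
      exact_mod_cast not_dvd_shift 17 (by norm_num) _ _ _ _ o17
    · apply okc_of_not_dvd 29 _ _ (by norm_num)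
      rw [hb, hA]
      exact_mod_cast not_dvd_shift 29 (by norm_num) _ _ _ _ o29
  · intro j
    have ha := hamono j
    have hfj := hfmono j
    have ha1 := hamono (j + 1)
    have hfj1 := hfmono (j + 1)
    have hoj := hoddn (n0 + j)
    have hoj1 := hoddn (n0 + (j + 1))
    have e : n0 + (j + 1) = (n0 + j) + 1 := by ring
    rw [e] at ha1 hfj1 hoj1 ⊢
    rcases hstep (n0 + j) with ⟨d, hd, h1, h2⟩ | ⟨d, hd, h1, h2⟩
    · left
      refine ⟨by omega, d, hd, by omega⟩
    · right
      refine ⟨by omega, d, hd, by omega⟩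

end Vale.Agent.H4
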